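import Crest.Agent.N250.L.Mono

/-!
Row 250, block L (helper31): consequences of the monomialisation: the Lojasiewicz GRADIENT
inequality (`loj_grad`), the Lojasiewicz inequality or an analytic curve (`loj_or_curve`), curve
selection for semianalytic sets (`curve_sel`).
-/

set_option autoImplicit false
set_option linter.unusedSectionVars false
set_option linter.unusedVariables false

open Set Filter Topology Metric
open scoped ContDiff NNReal Nat

noncomputable section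

namespace Crest.Agent.N250.Mo

variable {n m : ℕ} {A : Type*} {U : Ultrafilter A}

/-- simultaneous monomialisation -/
theorem mon_fam {ι : Type*} [Finite ι] {g : ι → V n → ℝ} (hg : ∀ j, AnalyticAt ℝ (g j) 0)
    {z : A → V n} (hz : Tendsto z U (𝓝 0)) :
    ∃ π y, Lift U z π y ∧ ∀ j, NZ (g j) → MU fun w => g j (π w) := by
  classical
  have := Fintype.ofFinite ι
  obtain ⟨π, y, L, h⟩ := mon U n z hz (fun w => ∏ j ∈ Finset.univ.filter fun j => NZ (g j), g j w)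
    (Finset.analyticAt_fun_prod _ fun j _ => hg j)
    (nz_prod _ (fun j _ => hg j) fun j hj => (Finset.mem_filter.1 hj).2)
  exact ⟨π, y, L, fun j hj => MU.of_prod (f := fun j w => g j (π w))
    (fun j _ => an_comp (hg j) L.an L.z0) h (Finset.mem_filter.2 ⟨Finset.mem_univ _, hj⟩)⟩

lemma exists_seq {P : ℕ → V n → Prop} (h : ∀ k, ∃ᶠ y in 𝓝 0, P k y) :
    ∃ z : ℕ → V n, Tendsto z atTop (𝓝 0) ∧ ∀ k, P k (z k) := by
  choose z h1 h2 using fun k : ℕ => ((h k).and_eventually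
    (ball_mem_nhds (0 : V n) (Nat.one_div_pos_of_nat (n := k)))).exists
  exact ⟨z, squeeze_zero_norm (fun k => (mem_ball_zero_iff.1 (h2 k)).le)
    tendsto_one_div_add_atTop_nhds_zero_nat, h1⟩

lemma ev_bound {E F : Type*} [TopologicalSpace E] [SeminormedAddCommGroup F] {f : E → F} {x : E}
    (h : ContinuousAt f x) : ∃ K : ℝ, 0 < K ∧ ∀ᶠ w in 𝓝 x, ‖f w‖ ≤ K :=
  ⟨‖f x‖ + 1, by positivity, (h.norm.eventually (gt_mem_nhds (lt_add_one _))).mono fun _ => le_of_lt⟩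

lemma hasDerivAt_mono (α : Fin n → ℕ) (w : V n) (i : Fin n) :
    HasDerivAt (fun s : ℝ => mono α (w + s • Pi.single i (w i))) (α i * mono α w) 0 := by
  have e : (fun s : ℝ => mono α (w + s • Pi.single i (w i))) =
      fun s => (1 + s) ^ α i * mono α w := funext fun s => by
    have : ∀ j, (w + s • Pi.single i (w i) : V n) j = (if j = i then 1 + s else 1) * w j :=
      fun j => by
        by_cases h : j = i
        · subst h; simp; ring
        · simp [h]
    simp only [mono, this, mul_pow, Finset.prod_mul_distrib]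
    rw [Finset.prod_eq_single i (by simp +contextual) (by simp), if_pos rfl]
  rw [e]
  simpa using (((hasDerivAt_id (0 : ℝ)).const_add 1).pow (α i)).mul_const (mono α w)

lemma MU.loj {h : V n → ℝ} (hm : MU h) (h0 : h 0 = 0) : ∃ (N : ℕ) (C : ℝ), N ≠ 0 ∧
    ∀ᶠ w in 𝓝 0, h w ≠ 0 → |h w| ^ (1 - (N : ℝ)⁻¹) ≤ C * ‖fderiv ℝ h w‖ := by
  classical
  obtain ⟨α, u, hu, u0, e⟩ := hm
  have hα : α ≠ 0 := fun hα => u0 (by simpa [hα, mono_zero, h0] using e.self_of_nhds.symm)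
  obtain ⟨i0, hi0⟩ := Function.ne_iff.1 hα
  have hN : ∑ j, α j ≠ 0 := fun hN => hi0 (Finset.sum_eq_zero_iff.1 hN i0 (Finset.mem_univ _))
  obtain ⟨K, hK, e1⟩ := ev_bound hu.fderiv.continuousAt
  obtain ⟨K', hK', e2⟩ := ev_bound (hu.continuousAt.inv₀ u0)
  refine ⟨_, 2 * K' ^ ((∑ j, α j : ℕ) : ℝ)⁻¹, hN, ?_⟩
  filter_upwards [e.eventually_nhds, e1, e2, hu.eventually_analyticAt,
    hu.continuousAt.eventually_ne u0, ball_mem_nhds (0 : V n) (show 0 < (2 * K * K')⁻¹ by positivity)]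
    with w a1 a2 a3 a4 a5 a6 hw
  obtain ⟨i, hi, hmin⟩ := (Finset.univ.filter fun j => α j ≠ 0).exists_min_image
    (fun j => |w j|) ⟨i0, by simpa using hi0⟩
  replace hi : α i ≠ 0 := (Finset.mem_filter.1 hi).2
  have b0 := a1.self_of_nhds
  have up : 0 < |u w| := abs_pos.2 a5
  rw [Pi.inv_apply, Real.norm_eq_abs, abs_inv, inv_le_iff_one_le_mul₀ up] at a3
  have c0 : HasDerivAt (fun s : ℝ => w + s • Pi.single i (w i)) (Pi.single i (w i) : V n) 0 := by
    simpa using ((hasDerivAt_id (0 : ℝ)).smul_const (Pi.single i (w i) : V n)).const_add w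
  have dh : DifferentiableAt ℝ h w :=
    ((an_mono α w).mul a4).differentiableAt.congr_of_eventuallyEq a1
  have d1 := dh.hasFDerivAt.comp_hasDerivAt_of_eq 0 c0 (by simp)
  have d2 := ((hasDerivAt_mono α w i).mul
    (a4.differentiableAt.hasFDerivAt.comp_hasDerivAt_of_eq 0 c0 (by simp))).congr_of_eventuallyEq
    (f₁ := h ∘ fun s : ℝ => w + s • (Pi.single i (w i) : V n))
    ((c0.continuousAt.tendsto.mono_right (by simp)).eventually a1)
  have d3 := d1.unique d2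
  simp only [Function.comp_apply, zero_smul, add_zero] at d3
  have n1 : ‖(Pi.single i (w i) : V n)‖ = |w i| := by rw [Pi.norm_single, Real.norm_eq_abs]
  have n2 : |w i| * (2 * K * K') ≤ 1 := by
    rw [← le_div_iff₀ (by positivity), one_div]
    exact (norm_le_pi_norm w i).trans (mem_ball_zero_iff.1 a6).le
  have n3 : |fderiv ℝ u w (Pi.single i (w i))| ≤ |u w| / 2 := by
    have := (fderiv ℝ u w).le_of_opNorm_le a2 (Pi.single i (w i))
    rw [n1, Real.norm_eq_abs] at this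
    have h1 : K * |w i| * 1 ≤ K * |w i| * (K' * |u w|) := by gcongr
    nlinarith
  have n4 : |h w| / 2 ≤ ‖fderiv ℝ h w‖ * |w i| := by
    have h1 := (fderiv ℝ h w).le_opNorm (Pi.single i (w i))
    rw [n1, d3, Real.norm_eq_abs, show (α i : ℝ) * mono α w * u w + mono α w *
      fderiv ℝ u w (Pi.single i (w i)) = mono α w * (α i * u w + fderiv ℝ u w (Pi.single i (w i)))
      by ring, abs_mul] at h1
    refine le_trans ?_ h1
    rw [b0, abs_mul, mul_div_assoc]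
    refine mul_le_mul_of_nonneg_left ?_ (abs_nonneg _)
    have h2 := abs_sub_abs_le_abs_add ((α i : ℝ) * u w) (fderiv ℝ u w (Pi.single i (w i)))
    have h3 : (1 : ℝ) ≤ α i := by exact_mod_cast Nat.one_le_iff_ne_zero.2 hi
    rw [abs_mul, Nat.abs_cast] at h2
    nlinarith
  have n5 : |w i| ^ (∑ j, α j) ≤ K' * |h w| := by
    have h1 : |w i| ^ (∑ j, α j) ≤ |mono α w| := by
      rw [mono, Finset.abs_prod, ← Finset.prod_pow_eq_pow_sum]
      refine Finset.prod_le_prod (fun _ _ => by positivity) fun j _ => ?_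
      rw [abs_pow]
      by_cases hj : α j = 0
      · simp [hj]
      · exact pow_le_pow_left₀ (abs_nonneg _) (hmin j (by simpa using hj)) _
    rw [b0, abs_mul, mul_left_comm]
    exact h1.trans (le_mul_of_one_le_right (abs_nonneg _) a3)
  have n6 : |w i| ≤ K' ^ ((∑ j, α j : ℕ) : ℝ)⁻¹ * |h w| ^ ((∑ j, α j : ℕ) : ℝ)⁻¹ := by
    rw [← Real.mul_rpow hK'.le (abs_nonneg _), Real.le_rpow_inv_iff_of_pos (abs_nonneg _)
      (by positivity) (by positivity), Real.rpow_natCast]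
    exact n5
  have hp := abs_pos.2 hw
  rw [Real.rpow_sub hp, Real.rpow_one, div_le_iff₀ (Real.rpow_pos_of_pos hp _)]
  have := mul_le_mul_of_nonneg_left n6 (norm_nonneg (fderiv ℝ h w))
  nlinarith

theorem loj_grad0 {f : V n → ℝ} (hf : AnalyticAt ℝ f 0) (h0 : f 0 = 0) :
    ∃ θ C : ℝ, 1 / 2 ≤ θ ∧ θ < 1 ∧ 0 < C ∧ ∀ᶠ y in 𝓝 0, |f y| ^ θ ≤ C * ‖fderiv ℝ f y‖ := by
  by_contra hc
  have t1 : ∀ k : ℕ, (1 : ℝ) / 2 ≤ 1 - ((k : ℝ) + 2)⁻¹ := fun k => by
    have : ((k : ℝ) + 2)⁻¹ ≤ 2⁻¹ := inv_anti₀ two_pos (by simp)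
    linarith
  obtain ⟨z, hz, h1⟩ := exists_seq (P := fun k y => ((k : ℝ) + 1) * ‖fderiv ℝ f y‖ <
      |f y| ^ (1 - ((k : ℝ) + 2)⁻¹)) fun k => by
    by_contra h
    exact hc ⟨_, (k : ℝ) + 1, t1 k, sub_lt_self _ (by positivity), by positivity,
      (not_frequently.1 h).mono fun y hy => not_lt.1 hy⟩
  have h2 : ∀ k, f (z k) ≠ 0 := fun k hk => by
    have := h1 k
    rw [hk, abs_zero, Real.zero_rpow (by linarith [t1 k])] at this
    exact absurd this (not_lt.2 (by positivity))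
  have hU : (hyperfilter ℕ : Filter ℕ) ≤ atTop := Nat.hyperfilter_le_atTop
  obtain ⟨π, y, L, hm⟩ := mon (hyperfilter ℕ) n z (hz.mono_left hU) f hf fun h =>
    let ⟨k, hk⟩ := (hz.eventually h).exists
    h2 k hk
  obtain ⟨N, C, hN, e⟩ := hm.loj (by rw [L.z0, h0])
  obtain ⟨K, hK, e1⟩ := ev_bound L.an.fderiv.continuousAt
  have e2 : ∀ᶠ w in 𝓝 (0 : V n), |f w| < 1 :=
    hf.continuousAt.abs.eventually (gt_mem_nhds (by simp [h0]))
  have e3 : ∀ᶠ k : ℕ in atTop, max (N : ℝ) (|C| * K) ≤ k :=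
    tendsto_natCast_atTop_atTop.eventually_ge_atTop _
  obtain ⟨k, ⟨a1, a2, a3⟩, a4, a5, a6, a7⟩ := ((L.lim.eventually (e.and (e1.and
    L.an.eventually_analyticAt))).and (L.eq.and (((hz.eventually e2).filter_mono hU).and
    (((hz.eventually hf.eventually_analyticAt).filter_mono hU).and (e3.filter_mono hU))))).exists
  have b1 := a1 (by rw [a4]; exact h2 k)
  have b2 : ‖fderiv ℝ (fun w => f (π w)) (y k)‖ ≤ ‖fderiv ℝ f (z k)‖ * K := by
    rw [fderiv_fun_comp _ (by rw [a4]; exact a6.differentiableAt) a3.differentiableAt, a4]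
    exact (ContinuousLinearMap.opNorm_comp_le _ _).trans (by gcongr)
  have b3 : |f (z k)| ^ (1 - ((k : ℝ) + 2)⁻¹) ≤ |f (z k)| ^ (1 - (N : ℝ)⁻¹) :=
    Real.rpow_le_rpow_of_exponent_ge (abs_pos.2 (h2 k)) a5.le (by
      have : ((k : ℝ) + 2)⁻¹ ≤ (N : ℝ)⁻¹ :=
        inv_anti₀ (by positivity) (by linarith [le_max_left (N : ℝ) (|C| * K)])
      linarith)
  rw [a4] at b1
  have b4 : C * ‖fderiv ℝ (fun w => f (π w)) (y k)‖ ≤ |C| * (‖fderiv ℝ f (z k)‖ * K) := by
    gcongr; exact le_abs_self C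
  have b5 := mul_le_mul_of_nonneg_right ((le_max_right _ _).trans a7) (norm_nonneg (fderiv ℝ f (z k)))
  have b6 := norm_nonneg (fderiv ℝ f (z k))
  linarith [h1 k]

lemma an_diag (ε : V n) : AnalyticAt ℝ (fun t : ℝ => t • ε) 0 := analyticAt_id.smul analyticAt_const

lemma tendsto_diag (ε : V n) : Tendsto (fun t : ℝ => t • ε) (𝓝 0) (𝓝 0) := by
  simpa only [ContinuousAt, zero_smul] using (an_diag ε).continuousAt

lemma sign_mono (α : Fin n → ℕ) {x y : V n} (h : ∀ i, SignType.sign (x i) = SignType.sign (y i)) :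
    SignType.sign (mono α x) = SignType.sign (mono α y) := by
  have e : ∀ x : V n, SignType.sign (mono α x) = ∏ i, SignType.sign (x i) ^ α i := fun x => by
    simpa only [mono, map_pow, signHom_apply] using map_prod (signHom (α := ℝ)) (fun i => x i ^ α i) _
  simp only [e, h]

lemma ev_sign {u : V n → ℝ} (hu : ContinuousAt u 0) (h : u 0 ≠ 0) :
    ∀ᶠ w in 𝓝 0, SignType.sign (u w) = SignType.sign (u 0) := by
  rcases h.lt_or_gt with h | h
  · exact (hu.eventually (gt_mem_nhds h)).mono fun w hw => by rw [sign_neg hw, sign_neg h]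
  · exact (hu.eventually (lt_mem_nhds h)).mono fun w hw => by rw [sign_pos hw, sign_pos h]

/-- CURVE SELECTION: an analytic half branch with the same signs as the ultrafilter point -/
theorem curve_sel0 {ι : Type*} [Finite ι] {g : ι → V n → ℝ} (hg : ∀ j, AnalyticAt ℝ (g j) 0)
    {z : A → V n} (hz : Tendsto z U (𝓝 0)) :
    ∃ γ : ℝ → V n, AnalyticAt ℝ γ 0 ∧ γ 0 = 0 ∧ ∀ᶠ t in 𝓝[>] 0, ∀ᶠ a in U, ∀ j,
      SignType.sign (g j (γ t)) = SignType.sign (g j (z a)) := by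
  obtain ⟨π, y, L, hm⟩ := mon_fam hg hz
  have h1 : ∀ i, ∃ s : SignType, ∀ᶠ a in U, SignType.sign (y a i) = s := fun i => by
    obtain ⟨s, hs⟩ := (U.map fun a => SignType.sign (y a i)).eq_pure_of_finite
    exact ⟨s, show {s} ∈ U.map fun a => SignType.sign (y a i) by rw [hs]; simp⟩
  choose s hs using h1
  have t0 := tendsto_diag fun i => (s i : ℝ)
  refine ⟨fun t => π (t • fun i => (s i : ℝ)), L.an.comp_of_eq (an_diag _) (zero_smul _ _),
    by simp [L.z0], ?_⟩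
  have h2 : ∀ j, ∀ᶠ p in 𝓝 (0 : V n) ×ˢ 𝓝 (0 : V n),
      (∀ i, SignType.sign (p.1 i) = SignType.sign (p.2 i)) →
      SignType.sign (g j (π p.1)) = SignType.sign (g j (π p.2)) := fun j => by
    by_cases h : NZ (g j)
    · obtain ⟨α, u, hu, u0, e⟩ := hm j h
      have e' := e.and (ev_sign hu.continuousAt u0)
      filter_upwards [e'.prod_mk e'] with p hp hs
      rw [hp.1.1, hp.2.1, sign_mul, sign_mul, hp.1.2, hp.2.2, sign_mono α hs]
    · have e' := L.tendsto.eventually (not_not.1 h)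
      filter_upwards [e'.prod_mk e'] with p hp hs
      rw [hp.1, hp.2]
  filter_upwards [((t0.prodMap L.lim).eventually (eventually_all.2 h2)).curry.filter_mono
    nhdsWithin_le_nhds, self_mem_nhdsWithin] with t h3 ht
  filter_upwards [h3, L.eq, eventually_all.2 hs] with a h4 h5 h6 j
  rw [← h5]
  refine h4 j fun i => ?_
  cases hs : s i <;> simp [h6 i, hs, Left.sign_neg, sign_pos (mem_Ioi.1 ht)]

theorem loj_or_curve0 {g h : V n → ℝ} (hg : AnalyticAt ℝ g 0) (hh : AnalyticAt ℝ h 0)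
    (h0 : h 0 = 0) : (∃ (N : ℕ) (C : ℝ), ∀ᶠ y in 𝓝 0, |h y| ^ N ≤ C * |g y|) ∨
      ∃ γ : ℝ → V n, AnalyticAt ℝ γ 0 ∧ γ 0 = 0 ∧ (∀ᶠ t in 𝓝 0, g (γ t) = 0) ∧
        ∀ᶠ t in 𝓝[≠] 0, h (γ t) ≠ 0 := by
  classical
  refine or_iff_not_imp_left.2 fun hc => ?_
  obtain ⟨z, hz, h1⟩ := exists_seq (P := fun k y => (k : ℝ) * |g y| < |h y| ^ (k + 1)) fun k => by
    by_contra h
    exact hc ⟨k + 1, k, (not_frequently.1 h).mono fun y hy => not_lt.1 hy⟩
  have h2 : ∀ k, h (z k) ≠ 0 := fun k hk => by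
    have := h1 k
    rw [hk, abs_zero, zero_pow k.succ_ne_zero] at this
    exact absurd this (not_lt.2 (by positivity))
  have hU : (hyperfilter ℕ : Filter ℕ) ≤ atTop := Nat.hyperfilter_le_atTop
  obtain ⟨π, y, L, hm⟩ := mon_fam (U := hyperfilter ℕ) (g := fun b : Bool => cond b g h)
    (fun b => by cases b <;> assumption) (hz.mono_left hU)
  obtain ⟨β, v, hv, v0, e⟩ := hm false fun h' => let ⟨k, hk⟩ := (hz.eventually h').exists; h2 k hk
  replace e : ∀ᶠ w in 𝓝 0, h (π w) = mono β w * v w := e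
  have fin : ∀ ε : V n, (∀ i, β i ≠ 0 → ε i ≠ 0) → (∀ᶠ t : ℝ in 𝓝 0, g (π (t • ε)) = 0) →
      ∃ γ : ℝ → V n, AnalyticAt ℝ γ 0 ∧ γ 0 = 0 ∧ (∀ᶠ t in 𝓝 0, g (γ t) = 0) ∧
        ∀ᶠ t in 𝓝[≠] 0, h (γ t) ≠ 0 := fun ε hε h3 => by
    refine ⟨fun t => π (t • ε), L.an.comp_of_eq (an_diag _) (zero_smul _ _), by simp [L.z0], h3, ?_⟩
    filter_upwards [((tendsto_diag ε).eventually (e.and (hv.continuousAt.eventually_ne v0))).filter_mono
      nhdsWithin_le_nhds, self_mem_nhdsWithin] with t h4 ht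
    rw [h4.1]
    refine mul_ne_zero (Finset.prod_ne_zero_iff.2 fun i _ => ?_) h4.2
    by_cases hi : β i = 0
    · simp [hi]
    · exact pow_ne_zero _ (mul_ne_zero ht (hε i hi))
  by_cases hg0 : NZ g
  swap
  · exact fin 1 (fun _ _ => one_ne_zero)
      ((L.tendsto.comp (tendsto_diag 1)).eventually (not_not.1 hg0))
  obtain ⟨α, u, hu, u0, e'⟩ := hm true hg0
  replace e' : ∀ᶠ w in 𝓝 0, g (π w) = mono α w * u w := e'
  by_cases hs : ∃ i, α i ≠ 0 ∧ β i = 0
  · obtain ⟨i, hi, hi'⟩ := hs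
    refine fin (Function.update 1 i 0) (fun j hj => ?_) ?_
    · rw [Function.update_of_ne fun hji : j = i => hj (by rw [hji, hi'])]; exact one_ne_zero
    · filter_upwards [(tendsto_diag _).eventually e'] with t ht
      rw [ht, mono_eq_zero hi (by simp), zero_mul]
  exfalso
  push Not at hs
  set N := ∑ j, α j
  obtain ⟨K, hK, e1⟩ := ev_bound ((hv.continuousAt.pow N).div₀ hu.continuousAt u0)
  have e2 : ∀ᶠ w in 𝓝 (0 : V n), |h w| < 1 :=
    hh.continuousAt.abs.eventually (gt_mem_nhds (by simp [h0]))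
  have e3 : ∀ᶠ k : ℕ in atTop, max (N : ℝ) K ≤ k := tendsto_natCast_atTop_atTop.eventually_ge_atTop _
  obtain ⟨k, ⟨a1, a2, a3, a4, a5⟩, a6, a7, a8⟩ := ((L.lim.eventually (e.and (e'.and (e1.and
    ((hu.continuousAt.eventually_ne u0).and (closedBall_mem_nhds 0 one_pos)))))).and (L.eq.and
    (((hz.eventually e2).filter_mono hU).and (e3.filter_mono hU)))).exists
  have b1 : |mono β (y k)| ^ N ≤ |mono α (y k)| := by
    rw [← abs_pow, ← mono_smul, mono, mono, Finset.abs_prod, Finset.abs_prod]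
    refine Finset.prod_le_prod (fun _ _ => abs_nonneg _) fun j _ => ?_
    rw [abs_pow, abs_pow]
    refine pow_le_pow_of_le_one (abs_nonneg _)
      ((norm_le_pi_norm (y k) j).trans (mem_closedBall_zero_iff.1 a5)) ?_
    by_cases hj : α j = 0
    · simp [hj]
    · exact (Finset.single_le_sum (fun _ _ => Nat.zero_le _) (Finset.mem_univ j)).trans
        (Nat.le_mul_of_pos_right _ (Nat.pos_of_ne_zero (hs j hj)))
  rw [Pi.pow_apply, Real.norm_eq_abs, abs_div, abs_pow,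
    div_le_iff₀ (abs_pos.2 a4)] at a3
  have b2 : |h (z k)| ^ N ≤ K * |g (z k)| := by
    rw [← a6, a1, a2, abs_mul, abs_mul, mul_pow, mul_left_comm]
    gcongr
  have b3 : |h (z k)| ^ (k + 1) ≤ |h (z k)| ^ N := pow_le_pow_of_le_one (abs_nonneg _) a7.le
    (Nat.le_succ_of_le (by exact_mod_cast (le_max_left _ _).trans a8))
  have b4 := mul_le_mul_of_nonneg_right ((le_max_right _ _).trans a8) (abs_nonneg (g (z k)))
  linarith [h1 k]

section general

variable {E : Type*} [NormedAddCommGroup E] [NormedSpace ℝ E] [FiniteDimensional ℝ E]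

lemma exists_chart (x : E) : ∃ (n : ℕ) (e : V n ≃L[ℝ] E), AnalyticAt ℝ (fun w => x + e w) 0 ∧
    Tendsto (fun y => e.symm (y - x)) (𝓝 x) (𝓝 0) := by
  let e := (Module.finBasis ℝ E).equivFunL.symm
  refine ⟨_, e, analyticAt_const.add (e.analyticAt 0), ?_⟩
  exact (by fun_prop : Continuous fun y => e.symm (y - x)).tendsto' _ _ (by simp)

/-- the LOJASIEWICZ GRADIENT INEQUALITY -/
theorem loj_grad {f : E → ℝ} {x : E} (hf : AnalyticAt ℝ f x) :
    ∃ θ C : ℝ, 1 / 2 ≤ θ ∧ θ < 1 ∧ 0 < C ∧ ∀ᶠ y in 𝓝 x, |f y - f x| ^ θ ≤ C * ‖fderiv ℝ f y‖ := by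
  obtain ⟨n, e, h1, h2⟩ := exists_chart x
  obtain ⟨θ, C, t1, t2, hC, h⟩ := loj_grad0 (f := fun w => f (x + e w) - f x)
    ((hf.comp_of_eq h1 (by simp)).sub analyticAt_const) (by simp)
  refine ⟨θ, C * (‖(e : V n →L[ℝ] E)‖ + 1), t1, t2, by positivity, ?_⟩
  filter_upwards [h2.eventually h, hf.eventually_analyticAt] with y h3 h4
  have h5 : HasFDerivAt (fun w => f (x + e w) - f x) (fderiv ℝ f y ∘L (e : V n →L[ℝ] E))
      (e.symm (y - x)) :=
    (HasFDerivAt.comp (f := fun w => x + e w) _ (by simpa using h4.differentiableAt.hasFDerivAt)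
      (e.hasFDerivAt.const_add x)).sub_const _
  rw [h5.fderiv] at h3
  simp only [ContinuousLinearEquiv.apply_symm_apply, add_sub_cancel] at h3
  refine h3.trans ?_
  rw [mul_assoc, mul_comm _ ‖fderiv ℝ f y‖]
  exact mul_le_mul_of_nonneg_left ((ContinuousLinearMap.opNorm_comp_le _ _).trans
    (by gcongr; exact le_add_of_nonneg_right zero_le_one)) hC.le

/-- the Lojasiewicz inequality, or an analytic curve in `{g = 0}` leaving `{h = 0}` -/
theorem loj_or_curve {g h : E → ℝ} {x : E} (hg : AnalyticAt ℝ g x) (hh : AnalyticAt ℝ h x)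
    (h0 : h x = 0) : (∃ (N : ℕ) (C : ℝ), ∀ᶠ y in 𝓝 x, |h y| ^ N ≤ C * |g y|) ∨
      ∃ γ : ℝ → E, AnalyticAt ℝ γ 0 ∧ γ 0 = x ∧ (∀ᶠ t in 𝓝 0, g (γ t) = 0) ∧
        ∀ᶠ t in 𝓝[≠] 0, h (γ t) ≠ 0 := by
  obtain ⟨n, e, h1, h2⟩ := exists_chart x
  refine (loj_or_curve0 (g := fun w => g (x + e w)) (h := fun w => h (x + e w))
    (hg.comp_of_eq h1 (by simp)) (hh.comp_of_eq h1 (by simp)) (by simpa using h0)).imp ?_ ?_
  · rintro ⟨N, C, h3⟩
    exact ⟨N, C, by simpa using h2.eventually h3⟩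
  · rintro ⟨γ, a1, a2, a3, a4⟩
    exact ⟨fun t => x + e (γ t), h1.comp_of_eq a1 a2, by simp [a2], a3, a4⟩

/-- CURVE SELECTION for semianalytic sets: `s j` are prescribed signs -/
theorem curve_sel {ι : Type*} [Finite ι] {g : ι → E → ℝ} {x : E} (hg : ∀ j, AnalyticAt ℝ (g j) x)
    (s : ι → SignType) (h : ∃ᶠ y in 𝓝 x, ∀ j, SignType.sign (g j y) = s j) :
    ∃ γ : ℝ → E, AnalyticAt ℝ γ 0 ∧ γ 0 = x ∧
      ∀ᶠ t in 𝓝[>] 0, ∀ j, SignType.sign (g j (γ t)) = s j := by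
  obtain ⟨n, e, h1, h2⟩ := exists_chart x
  obtain ⟨W, hW⟩ := Ultrafilter.exists_le (𝓝 x ⊓ 𝓟 {y | ∀ j, SignType.sign (g j y) = s j})
    (h := frequently_iff_neBot.1 h)
  obtain ⟨γ, a1, a2, a3⟩ := curve_sel0 (U := W) (g := fun j w => g j (x + e w))
    (fun j => (hg j).comp_of_eq h1 (by simp)) (h2.mono_left (hW.trans inf_le_left))
  refine ⟨fun t => x + e (γ t), h1.comp_of_eq a1 a2, by simp [a2], a3.mono fun t ht j => ?_⟩
  obtain ⟨y, b1, b2⟩ := (ht.and (le_principal_iff.1 (hW.trans inf_le_right))).exists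
  rw [b1 j, ← b2 j]
  simp

end general

end Crest.Agent.N250.Mo
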