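import Crest.Agent.N250.L.PA4
import Crest.Agent.N250.L.Loj
import Crest.Agent.N250.B2.Defs

/-!
Row 250, block FC (helper31): formal curve selection `B2.FCStmt` from the monomialisation of
pro-analytic germs.
-/

set_option autoImplicit false
set_option linter.unusedSectionVars false
set_option linter.unusedVariables false

open Set Filter Topology Asymptotics Metric

noncomputable section

namespace Crest.Agent.N250.FC

open Crest.Agent.N250.PA Crest.Agent.N250.B2
open Crest.Agent.N250.Mo (V mono cs tl mono_smul mono_eq_zero an_mono an_coord)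

lemma g1 : Gauge fun t : ℝ => t := gauge_clm (ContinuousLinearMap.id ℝ ℝ)

section one

variable {F : Type} [NormedAddCommGroup F] [NormedSpace ℝ F]

lemma pa_dslope {h : ℝ → F} (H : IsPA (fun t => t) h) : IsPA (fun t => t) (dslope h 0) := fun N => by
  obtain ⟨k, hk⟩ := H (N + 2)
  have h0 := hk.apply_zero g1
  obtain ⟨p, hp⟩ := hk.1
  refine ⟨dslope k 0, hp.has_fpower_series_dslope_fslope.analyticAt, ?_⟩
  rw [PA.Ord, ← nhdsNE_sup_pure, isBigO_sup, isBigO_pure]
  refine ⟨?_, fun _ => ?_⟩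
  · have h1 := (isBigO_refl (fun t : ℝ => t⁻¹) (𝓝[≠] 0)).smul
      (IsBigO.mono (hk.2.mono g1 (show N + 1 ≤ N + 2 by omega)) nhdsWithin_le_nhds)
    refine h1.congr' ?_ ?_ <;> filter_upwards [self_mem_nhdsWithin] with t ht
    · rw [dslope_of_ne _ ht, dslope_of_ne _ ht, slope_def_module, slope_def_module, sub_zero, h0,
        ← smul_sub]
      congr 1; abel
    · have : t ≠ 0 := ht
      rw [smul_eq_mul, pow_succ', inv_mul_cancel_left₀ this]
  · have h1 : HasDerivAt (fun t => h t - k t) 0 0 := by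
      rw [hasDerivAt_iff_isLittleO_nhds_zero]
      simpa [h0] using IsBigO.trans_isLittleO hk.2 (isLittleO_pow_id (show 1 < N + 2 by omega))
    have h2 := h1.add hk.1.differentiableAt.hasDerivAt
    rw [dslope_same, dslope_same, sub_eq_zero]
    simpa using (h2.congr_of_eventuallyEq (f₁ := h) (.of_forall fun t => by simp)).deriv

/-- the asymptotic expansion of a pro-analytic curve -/
lemma expansion {h : ℝ → F} (H : IsPA (fun t => t) h) :
    ∃ P : ℕ → F, P 0 = h 0 ∧ ∀ N, (fun t => h t - tr P N t) =O[𝓝 0] fun t => t ^ N := by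
  have h1 : ∀ N, IsPA (fun t => t) ((fun f => dslope f 0)^[N] h) := fun N => by
    induction N with
    | zero => exact H
    | succ N ih => rw [Function.iterate_succ_apply']; exact pa_dslope ih
  refine ⟨fun m => (fun f => dslope f 0)^[m] h 0, rfl, fun N => ?_⟩
  have h2 : ∀ t, h t - tr (fun m => (fun f => dslope f 0)^[m] h 0) N t =
      t ^ N • (fun f => dslope f 0)^[N] h t := fun t => by
    induction N with
    | zero => simp [tr]
    | succ N ih =>
      have := sub_smul_dslope ((fun f => dslope f 0)^[N] h) 0 t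
      rw [sub_zero] at this
      rw [tr, Finset.sum_range_succ, ← sub_sub, Function.iterate_succ_apply', pow_succ, mul_smul,
        this, smul_sub]
      exact congrArg (· - _) ih
  simp only [h2]
  exact Ord.smul_bdd' (Ord.pow_self N) ((h1 N).bdd g1)

lemma pa_isBigO {h : ℝ → F} (H : IsPA (fun t => t) h) (h0 : h 0 = 0) : h =O[𝓝 0] fun t => t := by
  obtain ⟨P, h1, h2⟩ := expansion H
  simpa [tr, h1, h0] using h2 1

end one

lemma mono_pow_le {n : ℕ} {α β : Fin n → ℕ} (hs : ∀ i, α i ≠ 0 → β i ≠ 0) {y : V n} (hy : ‖y‖ ≤ 1) :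
    |mono β y| ^ (∑ j, α j) ≤ |mono α y| := by
  rw [← abs_pow, ← mono_smul, mono, mono, Finset.abs_prod, Finset.abs_prod]
  refine Finset.prod_le_prod (fun _ _ => abs_nonneg _) fun j _ => ?_
  rw [abs_pow, abs_pow]
  refine pow_le_pow_of_le_one (abs_nonneg _) ((norm_le_pi_norm y j).trans hy) ?_
  by_cases hj : α j = 0
  · simp [hj]
  · exact (Finset.single_le_sum (fun _ _ => Nat.zero_le _) (Finset.mem_univ j)).trans
      (Nat.le_mul_of_pos_right _ (Nat.pos_of_ne_zero (hs j hj)))

lemma isBigO_mul_unit {A : Type*} {l : Filter A} {f u : A → ℝ} {c : ℝ} (hu : Tendsto u l (𝓝 c))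
    (hc : c ≠ 0) : f =O[l] fun a => f a * u a := by
  refine ((isBigO_refl (fun a => f a * u a) l).mul ((hu.inv₀ hc).isBigO_one ℝ)).congr' ?_
    (.of_forall fun a => mul_one _)
  filter_upwards [hu.eventually_ne hc] with a ha
  rw [mul_inv_cancel_right₀ ha]

/-- CURVE SELECTION for pro-analytic germs: the point has gauge coordinate `ρ` and the `g j` are
negligible at it -/
theorem curve {A τ : Type*} [Finite τ] {U : Ultrafilter A} {n : ℕ} {s : Fin n} {g : τ → V n → ℝ}
    (hg : ∀ j, IsPA (gc s) (g j)) {z : A → V n} (hz : Tendsto z U (𝓝 0))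
    (h0 : ∀ᶠ a in U, 0 < z a s) (hs : ∀ j N, (fun a => g j (z a)) =O[U] fun a => z a s ^ N) :
    ∃ γ : ℝ → V n, IsPA (fun t => t) γ ∧ γ 0 = 0 ∧ (∀ j, Null (fun t => t) fun t => g j (γ t)) ∧
      ¬ Null (fun t => t) fun t => γ t s := by
  classical
  have hp : Pt U (fun a => z a s) s z := ⟨hz, 1, h0.mono fun a ha => by simp [abs_of_pos ha]⟩
  obtain ⟨s', π, y, L, hm⟩ := mon_fam (g := fun o : Option τ => o.elim (fun w => w s) g)
    (fun o => by cases o; exacts [IsPA.coord s, hg _]) hp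
  obtain ⟨γ, v, hv, v0, e⟩ := hm none (not_null_coord s s)
  replace e : Null (gc s') fun w => π w s - mono γ w * v w := e
  set ε : V n := fun j => if γ j = 0 then 0 else 1 with hε
  have l0 : Tendsto (fun t : ℝ => t • ε) (𝓝 0) (𝓝 0) := Mo.tendsto_diag ε
  have lo : (fun t : ℝ => gc s' (t • ε)) =O[𝓝 0] fun t => t :=
    (isBigO_refl (fun t : ℝ => t) _).const_mul_left (ε s') |>.congr_left fun t => by
      simp [mul_comm]
  have ng : ∀ {h : V n → ℝ}, Null (gc s') h → ∀ N, (fun a => h (y a)) =O[U] fun a => z a s ^ N :=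
    fun hh N => by
      obtain ⟨C, -, hC⟩ := hh.negl L.pt N
      exact IsBigO.of_bound C (hC.and h0 |>.mono fun a ha => by
        rw [Real.norm_eq_abs (_ ^ N), abs_of_pos (pow_pos ha.2 N)]; exact ha.1)
  have lt : ∀ N, (fun a => z a s ^ (N + 1)) =o[U] fun a => z a s ^ N := fun N =>
    (isLittleO_pow_pow N.lt_succ_self).comp_tendsto (tendsto_pi_nhds.1 hz s)
  refine ⟨fun t => π (t • ε), L.pa.comp g1 (IsPA.of_analytic (Mo.an_diag ε)) (zero_smul _ _) lo,
    by simp [L.z0], fun j => ?_, fun hn => ?_⟩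
  · by_cases h : Null (gc s) (g j)
    · exact (L.null h).comp l0 lo
    obtain ⟨β, u, hu, u0, e'⟩ := hm (some j) h
    replace e' : Null (gc s') fun w => g j (π w) - mono β w * u w := e'
    by_cases hb : ∃ i, β i ≠ 0 ∧ γ i = 0
    · obtain ⟨i, h1, h2⟩ := hb
      exact (e'.comp l0 lo).congr fun t => by
        rw [mono_eq_zero h1 (by simp [hε, h2]), zero_mul, sub_zero]
    exfalso
    push Not at hb
    have a1 : (fun a => z a s) =O[U] fun a => mono γ (y a) := by
      have b1 := ((ng e 2).trans_isLittleO (lt 1)).congr' (f₂ := fun a => z a s -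
        mono γ (y a) * v (y a)) (g₂ := fun a => z a s) (L.eq.mono fun a ha => by simp [ha])
        (.of_forall fun a => pow_one _)
      refine b1.right_isBigO_sub.trans ?_
      simpa using (isBigO_refl (fun a => mono γ (y a)) U).mul
        ((hv.bdd (gg s')).comp_tendsto L.pt.lim)
    have a2 : (fun a => mono γ (y a) ^ ∑ i, β i) =O[U] fun a => mono β (y a) :=
      IsBigO.of_bound' ((L.pt.lim.eventually (closedBall_mem_nhds 0 one_pos)).mono fun a ha => by
        rw [Real.norm_eq_abs, Real.norm_eq_abs, abs_pow]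
        exact mono_pow_le hb (mem_closedBall_zero_iff.1 ha))
    have a3 := isBigO_mul_unit (f := fun a => mono β (y a))
      ((hu.continuousAt (gg s')).tendsto.comp L.pt.lim) u0
    have a4 : (fun a => mono β (y a) * u (y a)) =O[U] fun a => z a s ^ (∑ i, β i + 1) :=
      ((hs j _).sub (ng e' _)).congr' (L.eq.mono fun a ha => by simp [ha]) EventuallyEq.rfl
    exact isLittleO_irrefl' (h0.mono fun a ha => norm_ne_zero_iff.2 (pow_pos ha _).ne').frequently
      (((((a1.pow _).trans a2).trans a3).trans a4).trans_isLittleO (lt _))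
  · have a1 : ∀ t : ℝ, mono γ (t • ε) = t ^ ∑ i, γ i := fun t => by
      rw [mono, ← Finset.prod_pow_eq_pow_sum]
      refine Finset.prod_congr rfl fun i _ => ?_
      by_cases hi : γ i = 0 <;> simp [hε, hi]
    have a2 := isBigO_mul_unit (f := fun t : ℝ => t ^ ∑ i, γ i)
      ((hv.continuousAt (gg s')).tendsto.comp l0) v0
    have a3 := (hn.of_sub (e.comp l0 lo)) (∑ i, γ i + 1)
    simp only [a1] at a3
    have a4 : ∀ᶠ t : ℝ in 𝓝[≠] 0, ‖t ^ ∑ i, γ i‖ ≠ 0 :=
      eventually_nhdsWithin_of_forall fun t ht => norm_ne_zero_iff.2 (pow_ne_zero _ ht)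
    exact isLittleO_irrefl' a4.frequently (((a2.trans a3).trans_isLittleO
      (isLittleO_pow_pow (Nat.lt_succ_self _))).mono nhdsWithin_le_nhds)

lemma exists_seq {E : Type*} [NormedAddCommGroup E] {P : ℕ → E → Prop} (h : ∀ k, ∃ᶠ y in 𝓝 0, P k y) :
    ∃ z : ℕ → E, Tendsto z atTop (𝓝 0) ∧ ∀ k, P k (z k) := by
  choose z h1 h2 using fun k : ℕ => ((h k).and_eventually
    (ball_mem_nhds (0 : E) (Nat.one_div_pos_of_nat (n := k)))).exists
  exact ⟨z, squeeze_zero_norm (fun k => (mem_ball_zero_iff.1 (h2 k)).le)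
    tendsto_one_div_add_atTop_nhds_zero_nat, h1⟩

/-- **formal curve selection** -/
theorem fcStmt : FCStmt := by
  intro ι κ τ _ _ _ g ha hs
  classical
  refine or_iff_not_imp_left.2 fun hc => ?_
  let aL : (ι ⊕ κ → ℝ) →L[ℝ] κ → ℝ :=
    ContinuousLinearMap.pi fun j => ContinuousLinearMap.proj (Sum.inr j)
  have go : Gauge fun x : ι ⊕ κ → ℝ => ‖aa x‖ := gauge_norm_clm aL
  obtain ⟨G, hG⟩ := realise_seq go g hs
  have pG : IsPA (fun x => ‖aa x‖) G := fun N => ⟨g N, ha N, hG N⟩
  -- the point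
  obtain ⟨z, hz, h1⟩ := exists_seq (P := fun k (x : ι ⊕ κ → ℝ) =>
      ‖g (k + 2) x‖ < ‖aa x‖ ^ (k + 1) ∧ ‖G x - g (k + 2) x‖ ≤ ‖aa x‖ ^ (k + 1)) fun k => by
    refine Frequently.and_eventually ?_ ?_
    · by_contra h
      exact hc ⟨k + 1, 1, (not_frequently.1 h).mono fun x hx => by simpa using hx⟩
    · simpa using (IsBigO.trans_isLittleO (hG (k + 2)) ((isLittleO_pow_pow
        (Nat.lt_succ_self (k + 1))).comp_tendsto go.tendsto)).eventuallyLE
  have hU : (hyperfilter ℕ : Filter ℕ) ≤ atTop := Nat.hyperfilter_le_atTop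
  have p0 : ∀ k, 0 < ‖aa (z k)‖ := fun k => (norm_nonneg _).lt_of_ne' fun h => by
    have := (h1 k).1
    rw [h, zero_pow k.succ_ne_zero] at this
    exact absurd this (not_lt.2 (norm_nonneg _))
  have t0 : Tendsto (fun k => ‖aa (z k)‖) atTop (𝓝 0) := go.tendsto.comp hz
  obtain ⟨c, hc1, hc2⟩ := (isCompact_sphere (0 : κ → ℝ) 1).ultrafilter_le_nhds
    ((hyperfilter ℕ).map fun k => ‖aa (z k)‖⁻¹ • aa (z k)) (le_principal_iff.2 (by
      rw [Ultrafilter.coe_map, mem_map]
      exact univ_mem' fun k => by simp [norm_smul, (p0 k).ne']))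
  obtain ⟨j0, hj0⟩ : ∃ j, c j ≠ 0 := Function.ne_iff.1 fun h : c = 0 => by simp [h] at hc1
  -- the first chart
  let e := Fintype.equivFin (ι ⊕ κ)
  let π : V (Fintype.card (ι ⊕ κ) + 1) → ι ⊕ κ → ℝ := fun w =>
    Sum.elim (fun i => w (e (.inl i)).succ) fun j => w 0 * (c j + w (e (.inr j)).succ)
  have an : AnalyticAt ℝ π 0 := analyticAt_pi_iff.2 fun i => by
    rcases i with i | j
    exacts [an_coord _ 0, (an_coord _ 0).mul (analyticAt_const.add (an_coord _ 0))]
  have π0 : π 0 = 0 := funext fun i => by rcases i with i | j <;> simp [π]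
  have po : (fun w => ‖aa (π w)‖) =O[𝓝 0] gc 0 := IsBigO.norm_left (isBigO_pi.2 fun j =>
    ((isBigO_refl (gc 0) (𝓝 0)).mul
      ((analyticAt_const.add (an_coord (e (.inr j)).succ 0)).continuousAt.tendsto.isBigO_one ℝ
        (c := c j + 0))).congr_right fun _ => mul_one _)
  let w : ℕ → V (Fintype.card (ι ⊕ κ) + 1) := fun k => cs ‖aa (z k)‖ fun i =>
    Sum.elim (fun i => z k (.inl i)) (‖aa (z k)‖⁻¹ • aa (z k) - c) (e.symm i)
  have πw : ∀ k, π (w k) = z k := fun k => funext fun i => by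
    rcases i with i | j
    · simp [π, w]
    · simp [π, w, (p0 k).ne', aa]
  have tw : Tendsto w (hyperfilter ℕ) (𝓝 0) :=
    Mo.tendsto_cs (t0.mono_left hU) (tendsto_pi_nhds.2 fun i => by
      rcases e.symm i with i | j
      · exact tendsto_pi_nhds.1 (hz.mono_left hU) _
      · exact tendsto_pi_nhds.1 (tendsto_sub_nhds_zero_iff.2 hc2) j)
  have pπ : IsPA (gc 0) fun w => G (π w) := pG.comp (gg 0) (IsPA.of_analytic an) π0 po
  obtain ⟨γ, b1, b2, b3, b4⟩ := curve (s := 0) (g := fun j w => G (π w) j) (fun j => pπ.apply j) tw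
    (.of_forall p0) fun j N => IsBigO.of_bound 2 (by
      filter_upwards [hU (eventually_ge_atTop N), hU (t0.eventually (gt_mem_nhds one_pos))]
        with k k1 k2
      have k3 : ‖aa (z k)‖ ^ (k + 1) ≤ ‖aa (z k)‖ ^ N :=
        pow_le_pow_of_le_one (norm_nonneg _) (le_of_lt k2) (Nat.le_succ_of_le k1)
      have k4 := norm_le_norm_add_norm_sub' (G (z k)) (g (k + 2) (z k))
      rw [πw, norm_pow]
      refine (norm_le_pi_norm _ j).trans ?_
      have := h1 k
      simp only [w, Mo.cs_zero, norm_norm]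
      linarith [this.1, this.2])
  have c1 : IsPA (fun t => t) fun t => π (γ t) := b1.analytic_comp g1 (b2 ▸ an)
  have c0 : π (γ 0) = 0 := by rw [b2, π0]
  have ct := c1.tendsto g1 c0
  obtain ⟨P, d1, d2⟩ := expansion c1
  refine ⟨P, d1.trans c0, ?_, fun N => ?_⟩
  · by_contra h
    push Not at h
    refine b4 fun N => IsBigO.trans (isBigO_mul_unit (c := c j0)
      (u := fun t => c j0 + γ t (e (.inr j0)).succ) ?_ hj0) ?_
    · simpa using (tendsto_pi_nhds.1 (b1.tendsto g1 b2) _).const_add (c j0)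
    · simpa [π, tr, h] using isBigO_pi.1 (d2 N) (.inr j0)
  · have f1 : Tendsto (tr P N : ℝ → _) (𝓝 0) (𝓝 0) := by
      rcases N with _ | N
      · exact tendsto_const_nhds
      · simpa using ct.sub ((d2 _).trans_tendsto (by
          simpa using (tendsto_id (x := 𝓝 (0 : ℝ))).pow (N + 1)))
    have f2 := (analytic_sub_isBigO (ha N) ct f1).trans (d2 N)
    have f3 : Ord (fun t => t) N fun t => G (π (γ t)) - g N (π (γ t)) := (hG N).comp ct
      ((aL.isBigO_comp _ _).norm_left.trans (pa_isBigO c1 c0))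
    have f4 : (fun t => G (π (γ t))) =O[𝓝 0] fun t => t ^ N := isBigO_pi.2 fun j => b3 j N
    exact ((f4.sub f3).sub f2).congr_left fun t => by abel

end Crest.Agent.N250.FC
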