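import Mathlib

/-!
Row 250, block L (helper31): real analytic germs at `0`: division by a coordinate, the germs form a
domain, germs of the form monomial × unit (`MU`).
-/

set_option autoImplicit false
set_option linter.unusedSectionVars false
set_option linter.unusedVariables false

open Set Filter Topology Metric
open scoped ContDiff NNReal

noncomputable section

namespace Crest.Agent.N250.Mo

section div

variable {E : Type*} [NormedAddCommGroup E] [NormedSpace ℝ E]

/-- analytic Hadamard division -/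
theorem div_lemma {g : E → ℝ} (hg : AnalyticAt ℝ g 0) (P : E →L[ℝ] E) (l : E →L[ℝ] ℝ) (e : E)
    (hP : ∀ z, z - P z = l z • e) :
    ∃ h : E → ℝ, AnalyticAt ℝ h 0 ∧ ∀ᶠ z in 𝓝 0, g z - g (P z) = l z * h z := by
  obtain ⟨p, r, hp⟩ := hg
  let q : FormalMultilinearSeries ℝ E ℝ := fun n => ∑ i : Fin (n + 1),
    ((p (n + 1)).curryMid i e).compContinuousLinearMap
      fun j => if i.succAbove j < i then ContinuousLinearMap.id ℝ E else P
  obtain ⟨C, ρ, hC, hρ, hb⟩ := p.le_mul_pow_of_radius_pos hp.radius_pos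
  set M : ℝ := max 1 ‖P‖ with hM
  have M1 : 1 ≤ M := le_max_left _ _
  have hq : ∀ n, ‖q n‖ ≤ C * ρ * ‖e‖ * (2 * ρ * M) ^ n := fun n => by
    have h1 : ∀ i : Fin (n + 1), ‖((p (n + 1)).curryMid i e).compContinuousLinearMap
        fun j => if i.succAbove j < i then ContinuousLinearMap.id ℝ E else P‖ ≤
        C * ρ ^ (n + 1) * ‖e‖ * M ^ n := fun i => by
      refine (ContinuousMultilinearMap.norm_compContinuousLinearMap_le _ _).trans ?_
      refine mul_le_mul ?_ ?_ (Finset.prod_nonneg fun _ _ => norm_nonneg _) (by positivity)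
      · refine (ContinuousLinearMap.le_opNorm _ _).trans ?_
        rw [ContinuousMultilinearMap.norm_curryMid]
        exact mul_le_mul_of_nonneg_right (hb _) (norm_nonneg _)
      · refine (Finset.prod_le_prod (g := fun _ => M) (fun _ _ => norm_nonneg _)
          fun j _ => ?_).trans (by simp)
        split_ifs
        · exact ContinuousLinearMap.norm_id_le.trans M1
        · exact le_max_right _ _
    refine (norm_sum_le _ _).trans ((Finset.sum_le_card_nsmul _ _ _ fun i _ => h1 i).trans ?_)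
    have h2 : ((n + 1 : ℕ) : ℝ) ≤ 2 ^ n := by exact_mod_cast Nat.lt_two_pow_self
    rw [Finset.card_univ, Fintype.card_fin, nsmul_eq_mul]
    calc _ ≤ 2 ^ n * (C * ρ ^ (n + 1) * ‖e‖ * M ^ n) := by gcongr
      _ = _ := by rw [mul_pow, mul_pow]; ring
  have h0 : 0 < 2 * ρ * M := by positivity
  have hr : 0 < q.radius := by
    refine lt_of_lt_of_le ?_ (q.le_radius_of_bound (C * ρ * ‖e‖)
      (r := ⟨(2 * ρ * M)⁻¹, by positivity⟩) fun n => ?_)
    · exact ENNReal.coe_pos.2 (inv_pos.2 h0)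
    · refine (mul_le_mul_of_nonneg_right (hq n) (pow_nonneg (NNReal.coe_nonneg _) _)).trans (le_of_eq ?_)
      show _ * ((2 * ρ * M)⁻¹) ^ n = _
      rw [mul_assoc, ← mul_pow, mul_inv_cancel₀ h0.ne', one_pow, mul_one]
  refine ⟨q.sum, (q.hasFPowerSeriesOnBall hr).analyticAt, ?_⟩
  have e1 : ∀ᶠ z in 𝓝 (0 : E), z ∈ eball (0 : E) r := eball_mem_nhds _ hp.r_pos
  have e2 : ∀ᶠ z in 𝓝 (0 : E), P z ∈ eball (0 : E) r :=
    (P.continuous.tendsto' 0 0 (map_zero P)).eventually e1
  have e3 : ∀ᶠ z in 𝓝 (0 : E), z ∈ eball (0 : E) q.radius := eball_mem_nhds _ hr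
  filter_upwards [e1, e2, e3] with z h1 h2 h3
  have s1 := (hp.hasSum h1).sub (hp.hasSum h2)
  rw [zero_add, zero_add, ← hasSum_nat_add_iff' 1] at s1
  have s0 : ∑ i ∈ Finset.range 1, ((p i fun _ => z) - p i fun _ => P z) = 0 := by
    rw [Finset.sum_range_one, sub_eq_zero]; congr 1; exact Subsingleton.elim _ _
  rw [s0, sub_zero] at s1
  suffices h : ∀ n, ((p (n + 1) fun _ => z) - p (n + 1) fun _ => P z) = l z * q n fun _ => z by
    simp only [h] at s1
    exact s1.unique ((q.hasSum h3).mul_left (l z))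
  intro n
  have t := (p (n + 1)).toMultilinearMap.map_sub_map_piecewise (fun _ => z) (fun _ => P z)
    Finset.univ
  rw [Finset.piecewise_univ] at t
  refine t.trans ?_
  simp only [q, sum_apply, Finset.mul_sum]
  refine Finset.sum_congr rfl fun i _ => ?_
  rw [ContinuousMultilinearMap.compContinuousLinearMap_apply, ← smul_eq_mul,
    ← smul_apply, ← map_smul, ContinuousMultilinearMap.curryMid_apply]
  refine congrArg (p (n + 1)) (funext fun j => ?_)
  refine Fin.succAboveCases i ?_ (fun j => ?_) j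
  · simp [hP]
  · by_cases h : i.succAbove j < i <;> simp [h, (Fin.succAbove_ne i j).symm]

/-- analytic germs form a domain -/
theorem mul_eq_zero_germ {f g : E → ℝ} (hf : AnalyticAt ℝ f 0) (hg : AnalyticAt ℝ g 0)
    (h : ∀ᶠ z in 𝓝 0, f z * g z = 0) : (∀ᶠ z in 𝓝 0, f z = 0) ∨ ∀ᶠ z in 𝓝 0, g z = 0 := by
  obtain ⟨r, hr, H⟩ := Metric.eventually_nhds_iff_ball.1
    (h.and (hf.eventually_analyticAt.and hg.eventually_analyticAt))
  by_cases h1 : ∀ z ∈ ball (0 : E) r, f z = 0
  · exact Or.inl (mem_of_superset (ball_mem_nhds _ hr) h1)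
  · push Not at h1
    obtain ⟨w, hw, h1⟩ := h1
    have h2 : g =ᶠ[𝓝 w] 0 := by
      filter_upwards [(H w hw).2.1.continuousAt.eventually_ne h1, isOpen_ball.mem_nhds hw]
        with z a b using (mul_eq_zero.1 (H z b).1).resolve_left a
    have h3 := AnalyticOnNhd.eqOn_zero_of_preconnected_of_eventuallyEq_zero
      (fun z hz => (H z hz).2.2) (convex_ball (0 : E) r).isPreconnected hw h2
    exact Or.inr (mem_of_superset (ball_mem_nhds _ hr) h3)

end div

/-- the model space -/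
abbrev V (n : ℕ) := Fin n → ℝ

variable {n m : ℕ}

/-- monomials -/
def mono (α : Fin n → ℕ) (y : V n) : ℝ := ∏ i, y i ^ α i

/-- nonzero germ -/
def NZ (g : V n → ℝ) : Prop := ¬ ∀ᶠ z in 𝓝 0, g z = 0

/-- monomial times unit -/
def MU (g : V n → ℝ) : Prop :=
  ∃ (α : Fin n → ℕ) (u : V n → ℝ), AnalyticAt ℝ u 0 ∧ u 0 ≠ 0 ∧ ∀ᶠ y in 𝓝 0, g y = mono α y * u y

lemma an_coord (i : Fin n) (x : V n) : AnalyticAt ℝ (fun y : V n => y i) x :=
  (ContinuousLinearMap.proj (R := ℝ) (φ := fun _ : Fin n => ℝ) i).analyticAt x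

lemma an_mono (α : Fin n → ℕ) (x : V n) : AnalyticAt ℝ (mono α) x :=
  Finset.analyticAt_fun_prod _ fun i _ => (an_coord i x).pow _

lemma mono_zero (y : V n) : mono 0 y = 1 := by simp [mono]

lemma mono_add (α β : Fin n → ℕ) (y : V n) : mono (α + β) y = mono α y * mono β y := by
  simp [mono, pow_add, Finset.prod_mul_distrib]

lemma mono_smul (k : ℕ) (α : Fin n → ℕ) (y : V n) : mono (k • α) y = mono α y ^ k := by
  simp [mono, ← Finset.prod_pow, ← pow_mul, mul_comm]

lemma mono_single (i : Fin n) (y : V n) : mono (Pi.single i 1) y = y i := by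
  rw [mono, Finset.prod_eq_single i] <;> simp +contextual

lemma mono_eq_zero {α : Fin n → ℕ} {y : V n} {i : Fin n} (h : α i ≠ 0) (hy : y i = 0) :
    mono α y = 0 :=
  Finset.prod_eq_zero (Finset.mem_univ i) (by rw [hy, zero_pow h])

lemma mono_at_zero {α : Fin n → ℕ} (h : α ≠ 0) : mono α 0 = 0 := by
  obtain ⟨i, hi⟩ := Function.ne_iff.1 h
  exact mono_eq_zero hi rfl

lemma mono_sub {α : Fin n → ℕ} {i : Fin n} (h : α i ≠ 0) (y : V n) :
    mono α y = y i * mono (α - Pi.single i 1) y := by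
  rw [← mono_single i y, ← mono_add]
  congr 1
  funext j
  by_cases hj : j = i
  · subst hj; simp; omega
  · simp [hj]

lemma sum_sub_lt {α : Fin n → ℕ} {i : Fin n} (h : α i ≠ 0) :
    ∑ j, (α - Pi.single i 1 : Fin n → ℕ) j < ∑ j, α j :=
  Finset.sum_lt_sum (fun j _ => Nat.sub_le _ _) ⟨i, Finset.mem_univ _, by simp; omega⟩

lemma NZ.mul {f g : V n → ℝ} (hf : AnalyticAt ℝ f 0) (hg : AnalyticAt ℝ g 0) (h1 : NZ f)
    (h2 : NZ g) : NZ fun z => f z * g z := fun h => (mul_eq_zero_germ hf hg h).elim h1 h2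

lemma nz_of_ne {f : V n → ℝ} (h : f 0 ≠ 0) : NZ f := fun e => h e.self_of_nhds

lemma nz_prod {ι : Type*} (s : Finset ι) {f : ι → V n → ℝ} (hf : ∀ i ∈ s, AnalyticAt ℝ (f i) 0)
    (h : ∀ i ∈ s, NZ (f i)) : NZ fun z => ∏ i ∈ s, f i z := by
  classical
  induction s using Finset.induction_on with
  | empty => exact nz_of_ne (by simp)
  | insert a s ha ih =>
    simp only [Finset.prod_insert ha]
    have h1 := fun i hi => hf i (Finset.mem_insert_of_mem hi)
    exact NZ.mul (hf a (Finset.mem_insert_self _ _)) (Finset.analyticAt_fun_prod _ h1)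
      (h a (Finset.mem_insert_self _ _)) (ih h1 fun i hi => h i (Finset.mem_insert_of_mem hi))

lemma nz_coord (i : Fin n) : NZ fun y : V n => y i := fun h => by
  have t : Tendsto (fun r : ℝ => fun _ : Fin n => r) (𝓝[>] 0) (𝓝 0) :=
    tendsto_pi_nhds.2 fun _ => nhdsWithin_le_nhds
  obtain ⟨r, h1, h2⟩ := ((t.eventually h).and self_mem_nhdsWithin).exists
  exact ne_of_gt h2 h1

lemma nz_mono (α : Fin n → ℕ) : NZ (mono α) :=
  nz_prod _ (fun i _ => (an_coord i 0).pow _) fun i _ => by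
    simpa using nz_prod (Finset.range (α i)) (fun _ _ => an_coord i 0) fun _ _ => nz_coord i

lemma MU.an {g : V n → ℝ} (h : MU g) : AnalyticAt ℝ g 0 := by
  obtain ⟨α, u, hu, -, e⟩ := h
  exact ((an_mono α 0).mul hu).congr (e.mono fun y hy => hy.symm)

lemma MU.nz {g : V n → ℝ} (h : MU g) : NZ g := fun h0 => by
  obtain ⟨α, u, hu, h1, e⟩ := h
  refine NZ.mul (an_mono α 0) hu (nz_mono α) (nz_of_ne h1) ?_
  filter_upwards [e, h0] with y a b using a ▸ b

lemma MU.congr {f g : V n → ℝ} (h : MU f) (e : ∀ᶠ y in 𝓝 0, g y = f y) : MU g := by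
  obtain ⟨α, u, hu, h1, e'⟩ := h
  exact ⟨α, u, hu, h1, by filter_upwards [e, e'] with y a b using a.trans b⟩

lemma mu_unit {u : V n → ℝ} (hu : AnalyticAt ℝ u 0) (h : u 0 ≠ 0) : MU u :=
  ⟨0, u, hu, h, .of_forall fun y => by rw [mono_zero, one_mul]⟩

lemma mu_mono (α : Fin n → ℕ) : MU (mono α) :=
  ⟨α, fun _ => 1, analyticAt_const, one_ne_zero, .of_forall fun y => (mul_one _).symm⟩

lemma mu_coord (i : Fin n) : MU fun y : V n => y i :=
  (mu_mono (Pi.single i 1)).congr (.of_forall fun y => (mono_single i y).symm)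

lemma MU.mul {f g : V n → ℝ} (hf : MU f) (hg : MU g) : MU fun y => f y * g y := by
  obtain ⟨α, u, hu, h1, e⟩ := hf
  obtain ⟨β, v, hv, h2, e'⟩ := hg
  refine ⟨α + β, fun y => u y * v y, hu.mul hv, mul_ne_zero h1 h2, ?_⟩
  filter_upwards [e, e'] with y a b
  rw [a, b, mono_add]; ring

lemma mu_prod {ι : Type*} (s : Finset ι) {f : ι → V n → ℝ} (h : ∀ i ∈ s, MU (f i)) :
    MU fun z => ∏ i ∈ s, f i z := by
  classical
  induction s using Finset.induction_on with
  | empty => exact mu_unit analyticAt_const (by simp)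
  | insert a s ha ih =>
    simp only [Finset.prod_insert ha]
    exact (h a (Finset.mem_insert_self _ _)).mul (ih fun i hi => h i (Finset.mem_insert_of_mem hi))

lemma MU.pow {f : V n → ℝ} (hf : MU f) (k : ℕ) : MU fun y => f y ^ k := by
  simpa using mu_prod (Finset.range k) fun _ _ => hf

lemma tendsto_of_an {ρ : V m → V n} (h : AnalyticAt ℝ ρ 0) (h0 : ρ 0 = 0) :
    Tendsto ρ (𝓝 0) (𝓝 0) := by
  simpa only [ContinuousAt, h0] using h.continuousAt

lemma an_comp {F : Type*} [NormedAddCommGroup F] [NormedSpace ℝ F] {g : V n → F}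
    {ρ : V m → V n} (hg : AnalyticAt ℝ g 0) (h : AnalyticAt ℝ ρ 0) (h0 : ρ 0 = 0) :
    AnalyticAt ℝ (fun y => g (ρ y)) 0 :=
  hg.comp_of_eq h h0

lemma MU.comp {g : V n → ℝ} (hg : MU g) {ρ : V m → V n} (h0 : ρ 0 = 0)
    (hρ : ∀ i, MU fun y => ρ y i) : MU fun y => g (ρ y) := by
  obtain ⟨α, u, hu, h1, e⟩ := hg
  have ha : AnalyticAt ℝ ρ 0 := analyticAt_pi_iff.2 fun i => (hρ i).an
  refine ((mu_prod Finset.univ fun i _ => (hρ i).pow (α i)).mul
    (mu_unit (an_comp hu ha h0) (by rwa [h0]))).congr ?_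
  exact (tendsto_of_an ha h0).eventually e

/-- killing the coordinate `i` -/
def kill (i : Fin n) : V n →L[ℝ] V n :=
  ContinuousLinearMap.id ℝ _ - (ContinuousLinearMap.proj i).smulRight (Pi.single i 1)

lemma kill_apply (i : Fin n) (y : V n) : kill i y = Function.update y i 0 := by
  funext j
  by_cases h : j = i
  · subst h; simp [kill]
  · simp [kill, h]

lemma div_coord {g : V n → ℝ} (hg : AnalyticAt ℝ g 0) (i : Fin n) :
    ∃ h : V n → ℝ, AnalyticAt ℝ h 0 ∧ ∀ᶠ z in 𝓝 0, g z - g (kill i z) = z i * h z :=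
  div_lemma hg (kill i) (ContinuousLinearMap.proj i) (Pi.single i 1) fun z => by simp [kill]

lemma kill_tendsto (i : Fin n) : Tendsto (kill i) (𝓝 0) (𝓝 (0 : V n)) :=
  (kill i).continuous.tendsto' 0 0 (map_zero _)

lemma cancel {f g : V n → ℝ} (hf : AnalyticAt ℝ f 0) (hg : AnalyticAt ℝ g 0) (α : Fin n → ℕ)
    (h : ∀ᶠ y in 𝓝 0, mono α y * f y = mono α y * g y) : ∀ᶠ y in 𝓝 0, f y = g y := by
  refine ((mul_eq_zero_germ (an_mono α 0) (hf.sub hg) ?_).resolve_left (nz_mono α)).mono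
    fun y hy => sub_eq_zero.1 hy
  filter_upwards [h] with y hy
  rw [Pi.sub_apply, mul_sub, hy, sub_self]

/-- factors of a monomial times unit -/
lemma MU.of_mul {f g : V n → ℝ} (hf : AnalyticAt ℝ f 0) (hg : AnalyticAt ℝ g 0)
    (h : MU fun y => f y * g y) : MU f := by
  obtain ⟨α, u, hu, h1, e⟩ := h
  replace e : ∀ᶠ y in 𝓝 0, f y * g y = mono α y * u y := e
  induction hk : ∑ j, α j using Nat.strong_induction_on generalizing α f g with
  | _ k ih =>
  by_cases h0 : α = 0
  · refine mu_unit hf (left_ne_zero_of_mul (b := g 0) ?_)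
    rw [e.self_of_nhds, h0, mono_zero, one_mul]; exact h1
  obtain ⟨i, hi⟩ := Function.ne_iff.1 h0
  have hlt := hk ▸ sum_sub_lt hi
  have k0 : kill i 0 = 0 := map_zero _
  have e0 : ∀ᶠ y in 𝓝 (0 : V n), f (kill i y) * g (kill i y) = 0 := by
    filter_upwards [(kill_tendsto i).eventually e] with y hy
    rw [hy, mono_eq_zero hi (by simp [kill_apply]), zero_mul]
  have hu' := (an_mono (α - Pi.single i 1) 0).mul hu
  rcases mul_eq_zero_germ (an_comp hf ((kill i).analyticAt 0) k0)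
    (an_comp hg ((kill i).analyticAt 0) k0) e0 with e1 | e1
  · obtain ⟨h, ha, e2⟩ := div_coord hf i
    have e3 : ∀ᶠ y in 𝓝 0, f y = y i * h y := by
      filter_upwards [e1, e2] with y a b
      rw [← b, a, sub_zero]
    refine ((mu_coord i).mul (ih _ hlt ha hg _ (cancel (ha.mul hg) hu' (Pi.single i 1) ?_)
      rfl)).congr e3
    filter_upwards [e, e3] with y a b
    rw [mono_single, ← mul_assoc, ← mul_assoc, ← b, a, mono_sub hi]
  · obtain ⟨h, ha, e2⟩ := div_coord hg i
    refine ih _ hlt hf ha _ (cancel (hf.mul ha) hu' (Pi.single i 1) ?_) rfl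
    filter_upwards [e, e1, e2] with y a b c
    rw [b, sub_zero] at c
    rw [mono_single, mul_left_comm, ← c, a, mono_sub hi, mul_assoc]

lemma MU.of_prod {ι : Type*} {s : Finset ι} {f : ι → V n → ℝ}
    (hf : ∀ i ∈ s, AnalyticAt ℝ (f i) 0) (h : MU fun y => ∏ i ∈ s, f i y) {i : ι} (hi : i ∈ s) :
    MU (f i) := by
  classical
  refine MU.of_mul (g := fun y => ∏ j ∈ s.erase i, f j y) (hf i hi)
    (Finset.analyticAt_fun_prod _ fun j hj => hf j (Finset.mem_of_mem_erase hj)) ?_
  exact h.congr (.of_forall fun y => Finset.mul_prod_erase s (fun j => f j y) hi)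

/-- a monomial times an analytic germ is divisible only by smaller monomials -/
lemma le_of_eq {α β : Fin n → ℕ} {u v : V n → ℝ} (hu : AnalyticAt ℝ u 0) (hv : AnalyticAt ℝ v 0)
    (h0 : u 0 ≠ 0) (h : ∀ᶠ y in 𝓝 0, mono α y * u y = mono β y * v y) : β ≤ α := fun i => by
  by_contra hi
  have hi' : α i < β i := not_le.1 hi
  set γ : Fin n → ℕ := Pi.single i (α i)
  have e1 : α = γ + (α - γ) := (add_tsub_cancel_of_le fun j => by
    by_cases hj : j = i
    · subst hj; simp [γ]
    · simp [γ, hj]).symm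
  have e2 : β = γ + (β - γ) := (add_tsub_cancel_of_le fun j => by
    by_cases hj : j = i
    · subst hj; simp [γ, hi'.le]
    · simp [γ, hj]).symm
  have e3 := cancel ((an_mono (α - γ) 0).mul hu) ((an_mono (β - γ) 0).mul hv) γ (by
    filter_upwards [h] with y hy
    rw [Pi.mul_apply, Pi.mul_apply, ← mul_assoc, ← mul_assoc, ← mono_add, ← mono_add, ← e1, ← e2,
      hy])
  refine NZ.mul (an_mono (α - γ) 0) (an_comp hu ((kill i).analyticAt 0) (map_zero _)) (nz_mono _)
    (nz_of_ne (by rwa [map_zero])) ?_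
  filter_upwards [(kill_tendsto i).eventually e3] with y hy
  rw [Pi.mul_apply, Pi.mul_apply, mono_eq_zero (α := β - γ) (i := i) (by simp [γ]; omega)
    (by simp [kill_apply]), zero_mul] at hy
  rw [← hy]
  congr 1
  refine Finset.prod_congr rfl fun j _ => ?_
  by_cases hj : j = i
  · subst hj; simp [γ]
  · simp [kill_apply, hj]

/-- if the difference of two monomials times units is again one, the exponents are comparable -/
lemma cmp {α β : Fin n → ℕ} {u v : V n → ℝ} (hu : AnalyticAt ℝ u 0) (hv : AnalyticAt ℝ v 0)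
    (u0 : u 0 ≠ 0) (v0 : v 0 ≠ 0) (h : MU fun y => mono α y * u y - mono β y * v y) :
    α ≤ β ∨ β ≤ α := by
  obtain ⟨γ, w, hw, w0, e⟩ := h
  set δ := α ⊓ β
  have e1 : α = δ + (α - δ) := (add_tsub_cancel_of_le inf_le_left).symm
  have e2 : β = δ + (β - δ) := (add_tsub_cancel_of_le inf_le_right).symm
  have hd := ((an_mono (α - δ) 0).mul hu).sub ((an_mono (β - δ) 0).mul hv)
  have h1 : δ ≤ γ := le_of_eq hw hd w0 (by
    filter_upwards [e] with y hy
    rw [← hy, Pi.sub_apply, Pi.mul_apply, Pi.mul_apply, mul_sub, ← mul_assoc, ← mul_assoc,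
      ← mono_add, ← mono_add, ← e1, ← e2])
  have e3 : γ = δ + (γ - δ) := (add_tsub_cancel_of_le h1).symm
  have e4 := cancel hd ((an_mono (γ - δ) 0).mul hw) δ (by
    filter_upwards [e] with y hy
    rw [Pi.sub_apply, Pi.mul_apply, Pi.mul_apply, Pi.mul_apply, mul_sub, ← mul_assoc, ← mul_assoc,
      ← mul_assoc, ← mono_add, ← mono_add, ← mono_add, ← e1, ← e2, ← e3, hy])
  by_contra hc
  obtain ⟨⟨i, hi⟩, ⟨j, hj⟩⟩ : (∃ i, β i < α i) ∧ ∃ j, α j < β j := by
    simpa [Pi.le_def, not_or] using hc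
  have a0 : (α - δ) i ≠ 0 := by simp [δ]; omega
  have b0 : (β - δ) j ≠ 0 := by simp [δ]; omega
  have g0 : γ - δ ≠ 0 := fun h0 => by
    have := e4.self_of_nhds
    rw [Pi.sub_apply, Pi.mul_apply, Pi.mul_apply, Pi.mul_apply, mono_eq_zero a0 rfl,
      mono_eq_zero b0 rfl, h0, mono_zero] at this
    exact w0 (by linarith)
  obtain ⟨k, hk⟩ := Function.ne_iff.1 g0
  -- both `α - δ` and `β - δ` are then `≥` the unit vector `k`, or one is `≤` the other
  have t : ∀ {α' β' : Fin n → ℕ} {u' v' w' : V n → ℝ} {j : Fin n}, AnalyticAt ℝ u' 0 →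
      AnalyticAt ℝ v' 0 → AnalyticAt ℝ w' 0 → u' 0 ≠ 0 → α' k = 0 → α' j = 0 → β' j ≠ 0 →
      (∀ᶠ y in 𝓝 0, mono α' y * u' y = mono β' y * v' y + mono (γ - δ) y * w' y) → False := by
    intro α' β' u' v' w' j hu hv hw u0 ak aj bj e
    have k0 : kill k (kill j 0) = 0 := by simp
    have ka : AnalyticAt ℝ (fun y => kill k (kill j y)) (0 : V n) :=
      ((kill k).comp (kill j)).analyticAt 0
    refine NZ.mul (an_mono α' 0) (an_comp hu ka k0) (nz_mono _) (nz_of_ne (by rwa [k0])) ?_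
    filter_upwards [(tendsto_of_an ka k0).eventually e] with y hy
    rw [mono_eq_zero bj (by simp [kill_apply, Function.update_apply]),
      mono_eq_zero hk (by simp [kill_apply]), zero_mul, zero_mul, add_zero] at hy
    rw [← hy]
    congr 1
    refine Finset.prod_congr rfl fun l _ => ?_
    by_cases h1 : l = k
    · subst h1; simp [ak]
    by_cases h2 : l = j
    · subst h2; simp [aj]
    · simp [kill_apply, h1, h2]
  by_cases ak : (α - δ) k = 0
  · refine t hu hv hw u0 ak (by simp [δ]; omega) b0 ?_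
    filter_upwards [e4] with y hy
    simp only [Pi.sub_apply, Pi.mul_apply] at hy ⊢
    linarith
  · refine t hv hu hw.neg v0 (α' := β - δ) (by simp [δ] at ak ⊢; omega) (by simp [δ]; omega) a0 ?_
    filter_upwards [e4] with y hy
    simp only [Pi.sub_apply, Pi.mul_apply, Pi.neg_apply] at hy ⊢
    linarith

end Crest.Agent.N250.Mo
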