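import Crest.Agent.N250.L.Tor

/-!
Row 250, block L (helper31): MONOMIALISATION of a real analytic germ along an ultrafilter point
(one branch of the Bierstone-Milman / Rolin-Speissegger-Wilkie tree of local blow ups).
-/

set_option autoImplicit false
set_option linter.unusedSectionVars false
set_option linter.unusedVariables false

open Set Filter Topology Metric
open scoped ContDiff NNReal Nat

noncomputable section

namespace Crest.Agent.N250.Mo

variable {n m : ℕ} {A : Type*} {U : Ultrafilter A}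

/-- the monomialisation statement in dimension `n` -/
def Mon (U : Ultrafilter A) (n : ℕ) : Prop :=
  ∀ z : A → V n, Tendsto z U (𝓝 0) → ∀ g : V n → ℝ, AnalyticAt ℝ g 0 → NZ g →
    ∃ π y, Lift U z π y ∧ MU fun w => g (π w)

lemma mono_pw (α : Fin n → ℕ) (ε : V n) (N : ℕ) (s : V n) :
    mono α (fun i => ε i * s i ^ N) = mono α ε * mono (N • α) s := by
  simp [mono, mul_pow, Finset.prod_mul_distrib, ← pow_mul]

/-- preparation of the coefficients -/
lemma prep (hM : Mon U n) {d : ℕ} {a : ℕ → V n → ℝ} (ha : ∀ j, AnalyticAt ℝ (a j) 0)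
    (h0 : ∀ j < d, a j 0 = 0) (hJ : ∃ j < d, NZ (a j)) {x : A → V n} (hx : Tendsto x U (𝓝 0)) :
    ∃ π y, ∃ (β : Fin n → ℕ) (b : ℕ → V n → ℝ), Lift U x π y ∧ (∀ i, MU fun s => π s i) ∧ β ≠ 0 ∧
      (∀ j, AnalyticAt ℝ (b j) 0) ∧
      (∀ j < d, ∀ᶠ s in 𝓝 0, a j (π s) = mono ((d - j) • β) s * b j s) ∧
      (∃ j < d, b j 0 ≠ 0) ∧ ∀ j, ¬ NZ (a j) → b j 0 = 0 := by
  classical
  set J := (Finset.range d).filter fun j => NZ (a j) with hJd
  have mJ : ∀ j, j ∈ J ↔ j < d ∧ NZ (a j) := fun j => by simp [hJd]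
  let D : ℕ × ℕ → V n → ℝ := fun p s => a p.1 s ^ (d ! / (d - p.1)) - a p.2 s ^ (d ! / (d - p.2))
  have hD : ∀ p, AnalyticAt ℝ (D p) 0 := fun p => ((ha _).pow _).sub ((ha _).pow _)
  set K := (J ×ˢ J).filter fun p => NZ (D p) with hK
  have a1 : AnalyticAt ℝ (fun s : V n => ∏ i, s i) 0 :=
    Finset.analyticAt_fun_prod _ fun i _ => an_coord i 0
  have a2 : AnalyticAt ℝ (fun s : V n => ∏ j ∈ J, a j s) 0 :=
    Finset.analyticAt_fun_prod _ fun j _ => ha j
  have a3 : AnalyticAt ℝ (fun s : V n => ∏ p ∈ K, D p s) 0 :=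
    Finset.analyticAt_fun_prod _ fun p _ => hD p
  obtain ⟨π, y, L, hG⟩ := hM x hx
    (fun s => (∏ i, s i) * ((∏ j ∈ J, a j s) * ∏ p ∈ K, D p s)) (a1.mul (a2.mul a3))
    (NZ.mul a1 (a2.mul a3) (nz_prod _ (fun i _ => an_coord i 0) fun i _ => nz_coord i)
      (NZ.mul a2 a3 (nz_prod _ (fun j _ => ha j) fun j hj => ((mJ j).1 hj).2)
        (nz_prod _ (fun p _ => hD p) fun p hp => (Finset.mem_filter.1 hp).2)))
  have c : ∀ {g : V n → ℝ}, AnalyticAt ℝ g 0 → AnalyticAt ℝ (fun w => g (π w)) 0 :=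
    fun hg => an_comp hg L.an L.z0
  have m1 := MU.of_mul (c a1) (c (a2.mul a3)) hG
  have m23 := MU.of_mul (c (a2.mul a3)) (c a1) (hG.congr (.of_forall fun w => mul_comm _ _))
  have m2 := MU.of_mul (c a2) (c a3) m23
  have m3 := MU.of_mul (c a3) (c a2) (m23.congr (.of_forall fun w => mul_comm _ _))
  have n1 : ∀ i, MU fun s => π s i := fun i =>
    MU.of_prod (f := fun i w => π w i) (fun i _ => c (an_coord i 0)) m1 (Finset.mem_univ i)
  have n2 : ∀ j, ∃ (α : Fin n → ℕ) (u : V n → ℝ), AnalyticAt ℝ u 0 ∧ u 0 ≠ 0 ∧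
      (j ∈ J → ∀ᶠ w in 𝓝 0, a j (π w) = mono α w * u w) := fun j => by
    by_cases hj : j ∈ J
    · obtain ⟨α, u, h1, h2, h3⟩ :=
        MU.of_prod (f := fun j w => a j (π w)) (fun j _ => c (ha j)) m2 hj
      exact ⟨α, u, h1, h2, fun _ => h3⟩
    · exact ⟨0, fun _ => 1, analyticAt_const, one_ne_zero, fun h => absurd h hj⟩
  choose α u hu u0 e using n2
  let γ : ℕ → Fin n → ℕ := fun j => (d ! / (d - j)) • α j
  have hc : ∀ j ∈ J, ∀ k ∈ J, γ j ≤ γ k ∨ γ k ≤ γ j := fun j hj k hk => by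
    have e1 : ∀ᶠ w in 𝓝 0, mono (γ j) w * u j w ^ (d ! / (d - j)) -
        mono (γ k) w * u k w ^ (d ! / (d - k)) = D (j, k) (π w) := by
      filter_upwards [e j hj, e k hk] with w h1 h2
      simp only [D, γ, h1, h2, mono_smul, mul_pow]
    by_cases h : NZ (D (j, k))
    · exact cmp ((hu j).pow _) ((hu k).pow _) (pow_ne_zero _ (u0 j)) (pow_ne_zero _ (u0 k))
        ((MU.of_prod (f := fun p w => D p (π w)) (fun p _ => c (hD p)) m3
          (Finset.mem_filter.2 ⟨Finset.mem_product.2 ⟨hj, hk⟩, h⟩)).congr e1)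
    · refine Or.inr (le_of_eq ((hu j).pow (d ! / (d - j))) ((hu k).pow (d ! / (d - k)))
        (pow_ne_zero _ (u0 j)) ?_)
      filter_upwards [e1, L.tendsto.eventually (not_not.1 h)] with w h1 h2
      exact sub_eq_zero.1 (h1.trans h2)
  obtain ⟨j0, hj0, hmin⟩ := J.exists_min_image (fun j => ∑ i, γ j i)
    (hJ.imp fun j hj => (mJ j).2 hj)
  have hle : ∀ j ∈ J, γ j0 ≤ γ j := fun j hj => (hc j0 hj0 j hj).elim id fun h i => by
    by_contra hi
    exact absurd (Finset.sum_lt_sum (fun i _ => h i) ⟨i, Finset.mem_univ _, not_le.1 hi⟩)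
      (not_lt.2 (hmin j hj))
  have hγ : ∀ j ∈ J, (d - j) • γ j = d ! • α j := fun j hj => by
    have h1 := ((mJ j).1 hj).1
    rw [smul_smul, Nat.mul_div_cancel' (Nat.dvd_factorial (by omega) (by omega))]
  obtain ⟨ε, y', hε, L'⟩ := power d.factorial_ne_zero L.lim
  have hε' : ∀ α : Fin n → ℕ, mono α ε ≠ 0 := fun α =>
    Finset.prod_ne_zero_iff.2 fun i _ => pow_ne_zero _ (hε i)
  refine ⟨_, y', γ j0, fun j s => if j ∈ J then mono (α j) ε *
    mono (d ! • α j - (d - j) • γ j0) s * u j fun i => ε i * s i ^ d ! else 0, L.comp L',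
    fun i => (n1 i).comp L'.z0 fun k => (mu_unit analyticAt_const (hε k)).mul ((mu_coord k).pow _),
    fun hb => ?_, fun j => ?_, fun j hj => ?_, ⟨j0, ((mJ j0).1 hj0).1, ?_⟩, fun j hj => ?_⟩
  · have h1 := hγ j0 hj0
    rw [hb, smul_zero, eq_comm, smul_eq_zero_iff_right d.factorial_ne_zero] at h1
    have h2 := (e j0 hj0).self_of_nhds
    rw [L.z0, h0 j0 ((mJ j0).1 hj0).1, h1, mono_zero, one_mul] at h2
    exact u0 j0 h2.symm
  · by_cases hj : j ∈ J
    · simp only [if_pos hj]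
      exact (analyticAt_const.mul (an_mono _ 0)).mul (an_comp (hu j) L'.an L'.z0)
    · simp only [if_neg hj]
      exact analyticAt_const
  · by_cases hj' : j ∈ J
    · filter_upwards [L'.tendsto.eventually (e j hj')] with s hs
      have h1 : (d - j) • γ j0 ≤ d ! • α j := hγ j hj' ▸ nsmul_le_nsmul_right (hle j hj') _
      rw [hs, if_pos hj', mono_pw, ← add_tsub_cancel_of_le h1, mono_add, add_tsub_cancel_left]
      ring
    · filter_upwards [(L.comp L').tendsto.eventually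
        (not_not.1 fun h => hj' ((mJ j).2 ⟨hj, h⟩))] with s hs
      rw [hs, if_neg hj', mul_zero]
  · have h1 : (fun i => ε i * (0 : V n) i ^ d !) = 0 := L'.z0
    simp only [if_pos hj0, hγ j0 hj0, tsub_self, mono_zero, h1]
    exact mul_ne_zero (mul_ne_zero (hε' _) one_ne_zero) (u0 j0)
  · exact if_neg fun h => hj ((mJ j).1 h).2

/-- derivatives along the first axis -/
def reg (g : V (n + 1) → ℝ) (k : ℕ) : ℝ := iteratedDeriv k (fun t => g (cs t 0)) 0

/-- the conclusion of the inner induction -/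
def Res (U : Ultrafilter A) (z : A → V (n + 1)) (g : V (n + 1) → ℝ) : Prop :=
  ∃ π y, Lift U z π y ∧ (MU fun w => g (π w)) ∧ ∀ i : Fin n, MU fun w => π w i.succ

lemma core (hM : Mon U n) {e : ℕ}
    (ih : ∀ k < e + 1, ∀ (g : V (n + 1) → ℝ) (z : A → V (n + 1)), AnalyticAt ℝ g 0 →
      Tendsto z U (𝓝 0) → reg g k ≠ 0 → Res U z g)
    {g u : V (n + 1) → ℝ} {a : ℕ → V n → ℝ} (ha : ∀ j, AnalyticAt ℝ (a j) 0)
    (hu : AnalyticAt ℝ u 0) (u0 : u 0 ≠ 0) (h0 : ∀ j < e + 1, a j 0 = 0) (he : ¬ NZ (a e))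
    (hg : ∀ᶠ w in 𝓝 0, g w = ∑ j ∈ Finset.range (e + 1), a j (tl w) * w 0 ^ j +
      w 0 ^ (e + 1) * u w) {z : A → V (n + 1)} (hz : Tendsto z U (𝓝 0)) : Res U z g := by
  by_cases hJ : ∃ j < e + 1, NZ (a j)
  swap
  · refine ⟨_, _, lift_id hz, (((mu_coord 0).pow (e + 1)).mul (mu_unit hu u0)).congr ?_,
      fun i => mu_coord _⟩
    have h1 : ∀ j ∈ Finset.range (e + 1), ∀ᶠ w in 𝓝 (0 : V (n + 1)), a j (tl w) = 0 :=
      fun j hj => tendsto_tl.eventually (not_not.1 fun h => hJ ⟨j, Finset.mem_range.1 hj, h⟩)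
    filter_upwards [hg, (Finset.eventually_all _).2 h1] with w h2 h3
    rw [h2, Finset.sum_eq_zero fun j hj => by rw [h3 j hj, zero_mul], zero_add]
  obtain ⟨π, y, β, b, L, hπ, hβ, hb, e1, b0, b1⟩ := prep hM ha h0 hJ (tendsto_tl.comp hz)
  have L1 := L.tail hz
  have e2 : ∀ᶠ w in 𝓝 (0 : V (n + 1)), g (cs (w 0) (π (tl w))) =
      ∑ j ∈ Finset.range (e + 1), mono β (tl w) ^ (e + 1 - j) * b j (tl w) * w 0 ^ j +
        w 0 ^ (e + 1) * u (cs (w 0) (π (tl w))) := by
    filter_upwards [L1.tendsto.eventually hg, (Finset.eventually_all _).2 fun j hj =>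
      tendsto_tl.eventually (e1 j (Finset.mem_range.1 hj))] with w h1 h2
    rw [h1, tl_cs, cs_zero]
    congr 1
    exact Finset.sum_congr rfl fun j hj => by rw [h2 j hj, mono_smul]
  rcases ratio U (fun a => z a 0) (fun a => mono β (y a)) with ⟨c, σ, hσ, e3⟩ | e3
  · have L2 := lift_blow hβ L1.lim hσ e3
    have hc : AnalyticAt ℝ (fun w : V (n + 1) => c + w 0) 0 := analyticAt_const.add (an_coord 0 0)
    obtain ⟨k, hk, h1⟩ := poly_ord (b := fun j => b j 0) (c := c) u0 (b1 e he) b0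
    obtain ⟨π3, y3, L3, m1, m2⟩ := ih k hk (fun w => ∑ j ∈ Finset.range (e + 1),
      b j (tl w) * (c + w 0) ^ j + (c + w 0) ^ (e + 1) * u (cs (blow β c w 0) (π (tl w)))) _
      ((Finset.analyticAt_fun_sum _ fun j _ => (an_tl' (hb j)).mul (hc.pow j)).add
        ((hc.pow _).mul (an_comp hu (L1.comp L2).an (L1.comp L2).z0))) L2.lim
      (by simpa [reg, blow, mono_at_zero hβ, L.z0] using h1)
    have t0 : tl (π3 0) = 0 := by rw [L3.z0, tl_zero]
    refine ⟨_, y3, (L1.comp L2).comp L3, ((((mu_mono β).comp (ρ := fun w => tl (π3 w)) t0 m2).pow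
      (e + 1)).mul m1).congr ?_,
      fun i => (hπ i).comp t0 m2⟩
    filter_upwards [(L2.comp L3).tendsto.eventually e2] with w hw
    refine hw.trans ?_
    simp only [blow, tl_cs, cs_zero, mul_add _ (∑ j ∈ _, _), Finset.mul_sum, mul_pow]
    congr 1
    · refine Finset.sum_congr rfl fun j hj => ?_
      rw [← pow_sub_mul_pow (mono β (tl (π3 w))) (Finset.mem_range.1 hj).le]
      ring
    · ring
  · obtain ⟨π3, y3, h, L3, m1, hh, h0', e4⟩ := toric β L1.lim e3
    have t0 : tl (π3 0) = 0 := by rw [L3.z0, tl_zero]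
    have ta := an_comp (an_tl 0) L3.an L3.z0
    refine ⟨_, y3, L1.comp L3, (((m1 0).pow (e + 1)).mul (mu_unit (u := fun w =>
      ∑ j ∈ Finset.range (e + 1), h w ^ (e + 1 - j) * b j (tl (π3 w)) +
        u (cs (π3 w 0) (π (tl (π3 w)))))
      ((Finset.analyticAt_fun_sum _ fun j _ => (hh.pow _).mul (an_comp (hb j) ta t0)).add
        (an_comp hu (L1.comp L3).an (L1.comp L3).z0)) ?_)).congr ?_, fun i => (hπ i).comp t0 fun i => m1 i.succ⟩
    · rw [Finset.sum_eq_zero fun j hj => by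
        rw [h0', zero_pow (Nat.sub_ne_zero_of_lt (Finset.mem_range.1 hj)), zero_mul]]
      simpa [L3.z0, L.z0] using u0
    · filter_upwards [L3.tendsto.eventually e2, e4] with w hw h4
      rw [hw, h4, mul_add, Finset.mul_sum]
      congr 1
      refine Finset.sum_congr rfl fun j hj => ?_
      rw [← pow_sub_mul_pow (π3 w 0) (Finset.mem_range.1 hj).le]
      ring

/-- the partial derivative in the first variable -/
def D0 (g : V (n + 1) → ℝ) (w : V (n + 1)) : ℝ := fderiv ℝ g w (cs 1 0)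

lemma an_D0 {g : V (n + 1) → ℝ} {w : V (n + 1)} (hg : AnalyticAt ℝ g w) : AnalyticAt ℝ (D0 g) w :=
  ((ContinuousLinearMap.apply ℝ ℝ (cs 1 (0 : V n))).analyticAt _).comp hg.fderiv

lemma an_D0_iter {g : V (n + 1) → ℝ} {w : V (n + 1)} (hg : AnalyticAt ℝ g w) (k : ℕ) :
    AnalyticAt ℝ (D0^[k] g) w := by
  induction k generalizing g with
  | zero => exact hg
  | succ k ih => exact ih (an_D0 hg)

lemma hasDerivAt_cs (t : ℝ) (x : V n) : HasDerivAt (fun t => cs t x) (cs 1 0) t :=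
  hasDerivAt_pi.2 fun i => Fin.cases (hasDerivAt_id t) (fun i => hasDerivAt_const t (x i)) i

lemma hasDerivAt_D0 {g : V (n + 1) → ℝ} {t : ℝ} {x : V n} (hg : AnalyticAt ℝ g (cs t x)) :
    HasDerivAt (fun t => g (cs t x)) (D0 g (cs t x)) t :=
  hg.differentiableAt.hasFDerivAt.comp_hasDerivAt t (hasDerivAt_cs t x)

lemma iter_D0 {g : V (n + 1) → ℝ} {t : ℝ} {x : V n} (hg : AnalyticAt ℝ g (cs t x)) (k : ℕ) :
    iteratedDeriv k (fun t => g (cs t x)) t = D0^[k] g (cs t x) := by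
  induction k generalizing g with
  | zero => rfl
  | succ k ih =>
    rw [iteratedDeriv_succ', Function.iterate_succ_apply, ← ih (an_D0 hg)]
    refine Filter.EventuallyEq.iteratedDeriv_eq k ?_
    filter_upwards [(hasDerivAt_cs t x).continuousAt.eventually hg.eventually_analyticAt] with s hs
    exact (hasDerivAt_D0 hs).deriv

lemma ift {G : V (n + 1) → ℝ} (hG : AnalyticAt ℝ G 0) (h0 : G 0 = 0) (h1 : D0 G 0 ≠ 0) :
    ∃ ψ : V n → ℝ, AnalyticAt ℝ ψ 0 ∧ ψ 0 = 0 ∧ ∀ᶠ x in 𝓝 0, G (cs (ψ x) x) = 0 := by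
  have h2 : AnalyticAt ℝ (fun p : V n × ℝ => G (cs p.2 p.1)) (0, 0) :=
    hG.comp_of_eq (an_cs analyticAt_snd analyticAt_fst) cs_zero_zero
  have h3 : ContDiffAt ℝ ω (fun p : V n × ℝ => G (cs p.2 p.1)) (0, 0) := h2.contDiffAt
  have h4 : (fderiv ℝ (fun p : V n × ℝ => G (cs p.2 p.1)) (0, 0) ∘L
      ContinuousLinearMap.inr ℝ (V n) ℝ).IsInvertible := by
    refine ⟨ContinuousLinearEquiv.unitsEquivAut ℝ (Units.mk0 _ h1), ?_⟩
    have h5 := h2.differentiableAt.hasFDerivAt.comp_hasDerivAt (f := fun t : ℝ => ((0 : V n), t))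
      0 ((hasDerivAt_const (0 : ℝ) (0 : V n)).prodMk (hasDerivAt_id 0))
    have h6 := hasDerivAt_D0 (t := 0) (x := 0) (g := G) (by rwa [cs_zero_zero])
    ext
    simpa using h6.unique h5
  exact ⟨h3.implicitFunction (by simp) h4, (h3.contDiffAt_implicitFunction (by simp) h4).analyticAt,
    h3.implicitFunction_apply_self (by simp) h4, by
      simpa [h0] using h3.eventually_apply_implicitFunction (by simp) h4⟩

lemma res (hM : Mon U n) (d : ℕ) : ∀ (g : V (n + 1) → ℝ) (z : A → V (n + 1)), AnalyticAt ℝ g 0 →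
    Tendsto z U (𝓝 0) → reg g d ≠ 0 → Res U z g := by
  induction d using Nat.strong_induction_on with
  | _ d ih =>
  intro g z hg hz hd
  by_cases h : ∃ k < d, reg g k ≠ 0
  · obtain ⟨k, hk, h⟩ := h
    exact ih k hk g z hg hz h
  push Not at h
  have hg0 : AnalyticAt ℝ g (cs 0 0) := by rwa [cs_zero_zero]
  rcases d with _ | e
  · exact ⟨_, _, lift_id hz, mu_unit hg (by simpa [reg] using hd), fun i => mu_coord _⟩
  obtain ⟨ψ, hψ, ψ0, e1⟩ := ift (an_D0_iter hg e)
    (by simpa [reg, iter_D0 hg0] using h e e.lt_succ_self)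
    (by simpa [reg, iter_D0 hg0, Function.iterate_succ_apply'] using hd)
  have L : Lift U z (fun w => cs (w 0 + ψ (tl w)) (tl w))
      fun a => cs (z a 0 - ψ (tl (z a))) (tl (z a)) :=
    ⟨an_cs ((an_coord 0 0).add (an_tl' hψ)) (an_tl 0), by simp [ψ0], tendsto_cs (by
      simpa [ψ0] using (tendsto_pi_nhds.1 hz 0).sub
        (hψ.continuousAt.tendsto.comp (tendsto_tl.comp hz))) (tendsto_tl.comp hz),
      .of_forall fun a => by simp⟩
  obtain ⟨a, u, ha, hu, e2⟩ := expand (an_comp hg L.an L.z0) (e + 1)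
  have t0 : Tendsto (fun x : V n => cs 0 x) (𝓝 0) (𝓝 0) := tendsto_cs tendsto_const_nhds tendsto_id
  have e3 : ∀ᶠ x in 𝓝 (0 : V n), AnalyticAt ℝ (fun t => u (cs t x)) 0 ∧ ∀ᶠ t in 𝓝 0,
      g (cs (t + ψ x) x) = ∑ j ∈ Finset.range (e + 1), a j x * t ^ j + t ^ (e + 1) * u (cs t x) := by
    filter_upwards [t0.eventually hu.eventually_analyticAt, t0.eventually e2.eventually_nhds]
      with x h1 h2
    exact ⟨h1.comp_of_eq (an_cs analyticAt_id analyticAt_const) rfl,
      (hasDerivAt_cs 0 x).continuousAt.eventually h2⟩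
  obtain ⟨e4, e5⟩ := e3.self_of_nhds
  simp only [ψ0, add_zero] at e5
  obtain ⟨π, y, L', m1, m2⟩ := core hM ih ha hu (fun h0 => hd (by
      rw [reg, coef_top e4 e5, cs_zero_zero, h0, mul_zero]))
    (fun j hj => (mul_eq_zero.1 ((coef e4 e5 hj).symm.trans (h j hj))).resolve_left
      (Nat.cast_ne_zero.2 j.factorial_ne_zero)) (not_not.2 (by
      have t1 : Tendsto (fun x : V n => cs (ψ x) x) (𝓝 0) (𝓝 0) :=
        tendsto_cs (by simpa only [ContinuousAt, ψ0] using hψ.continuousAt) tendsto_id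
      filter_upwards [e1, e3, t1.eventually hg.eventually_analyticAt] with x h1 h2 h3
      have h4 := coef h2.1 h2.2 e.lt_succ_self
      rw [iteratedDeriv_comp_add_const e (fun t => g (cs t x)) (ψ x)] at h4
      simp only [zero_add] at h4
      rw [iter_D0 h3, h1] at h4
      exact (mul_eq_zero.1 h4.symm).resolve_left (Nat.cast_ne_zero.2 e.factorial_ne_zero)))
    e2 L.lim
  exact ⟨_, y, L.comp L', m1, m2⟩

lemma exists_dir {g : V (n + 1) → ℝ} (hg : AnalyticAt ℝ g 0) (h : NZ g) :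
    ∃ (v : V (n + 1)) (d : ℕ), v 0 ≠ 0 ∧ iteratedDeriv d (fun t : ℝ => g (t • v)) 0 ≠ 0 := by
  obtain ⟨r, hr, H⟩ := Metric.eventually_nhds_iff_ball.1 hg.eventually_analyticAt
  obtain ⟨v, hv, h1⟩ : ∃ v ∈ ball (0 : V (n + 1)) r, g v * v 0 ≠ 0 := by
    by_contra hc
    push Not at hc
    exact NZ.mul hg (an_coord 0 0) h (nz_coord 0) (mem_of_superset (ball_mem_nhds _ hr) hc)
  refine ⟨v, ?_⟩
  by_contra hc
  push Not at hc
  have h2 : AnalyticOnNhd ℝ (fun t : ℝ => g (t • v)) (Icc 0 1) := fun t ht =>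
    (H _ (by
      rw [mem_ball_zero_iff, norm_smul, Real.norm_of_nonneg ht.1]
      exact (mul_le_of_le_one_left (norm_nonneg _) ht.2).trans_lt (mem_ball_zero_iff.1 hv))).comp
      (f := fun t : ℝ => t • v) (analyticAt_id.smul analyticAt_const)
  have h3 : analyticOrderAt (fun t : ℝ => g (t • v)) 0 = ⊤ :=
    ENat.eq_top_iff_forall_ge.2 fun k => (natCast_le_analyticOrderAt_iff_iteratedDeriv_eq_zero
      (h2 0 (by simp))).2 fun i _ => hc i (right_ne_zero_of_mul h1)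
  have h4 := h2.eqOn_zero_of_preconnected_of_eventuallyEq_zero isPreconnected_Icc
    (z₀ := 0) (by simp) (analyticOrderAt_eq_top.1 h3) (x := 1) (by simp)
  exact left_ne_zero_of_mul h1 (by simpa using h4)

/-- MONOMIALISATION -/
theorem mon (U : Ultrafilter A) (n : ℕ) : Mon U n := by
  induction n with
  | zero =>
    intro z hz g hg h
    exact ⟨_, _, lift_id hz, mu_unit hg fun h0 => h (.of_forall fun w => by
      rw [Subsingleton.elim w 0, h0])⟩
  | succ n ih =>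
    intro z hz g hg h
    obtain ⟨v, d, v0, hd⟩ := exists_dir hg h
    have t0 : Tendsto (fun a => z a 0 / v 0) U (𝓝 0) := by
      simpa using (tendsto_pi_nhds.1 hz 0).div_const (v 0)
    have L : Lift U z (fun w => w 0 • v + cs 0 (tl w))
        fun a => cs (z a 0 / v 0) (tl (z a) - (z a 0 / v 0) • tl v) :=
      ⟨((an_coord 0 0).smul analyticAt_const).add (an_cs analyticAt_const (an_tl 0)), by simp,
        tendsto_cs t0 (by simpa using (tendsto_tl.comp hz).sub (t0.smul_const (tl v))),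
        .of_forall fun a => funext fun i => Fin.cases (by simp [v0]) (fun i => by simp) i⟩
    obtain ⟨π, y, L', m1, -⟩ := res ih d _ _ (an_comp hg L.an L.z0) L.lim
      (by simpa [reg] using hd)
    exact ⟨_, y, L.comp L', m1⟩

end Crest.Agent.N250.Mo
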