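import Mathlib

/-!
# Row 250, block (L): pro-analytic germs (helper53)

`IsPA om h`: the function `h` is, for every `N`, analytic at `0` up to `O(om ^ N)`; `Null om h`: `h = O(om ^ N)`
for every `N`.  `om` is a gauge (Lipschitz, `om 0 = 0`).  Ring operations, composition, realisation.
-/

set_option autoImplicit false

open Filter Topology Asymptotics

namespace Crest.Agent.N250.PA

variable {E E' F G : Type*} [NormedAddCommGroup E] [NormedSpace ℝ E] [NormedAddCommGroup E']
  [NormedSpace ℝ E'] [NormedAddCommGroup F] [NormedSpace ℝ F] [NormedAddCommGroup G] [NormedSpace ℝ G]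

/-- a gauge: Lipschitz, zero at the origin -/
structure Gauge (om : E → ℝ) : Prop where
  zero : om 0 = 0
  lip : ∃ K, LipschitzWith K om

/-- `h = O(om ^ N)` at the origin -/
def Ord (om : E → ℝ) (N : ℕ) (h : E → F) : Prop := h =O[𝓝 0] fun w => om w ^ N

/-- `h = O(om ^ N)` for every `N` -/
def Null (om : E → ℝ) (h : E → F) : Prop := ∀ N : ℕ, Ord om N h

/-- `k` is an analytic approximation of `h` to order `N` -/
def App (om : E → ℝ) (N : ℕ) (h k : E → F) : Prop :=
  AnalyticAt ℝ k 0 ∧ Ord om N fun w => h w - k w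

/-- pro-analytic germ -/
def IsPA (om : E → ℝ) (h : E → F) : Prop := ∀ N : ℕ, ∃ k, App om N h k

variable {om : E → ℝ} {om' : E' → ℝ}

omit [NormedSpace ℝ E] in
theorem Gauge.tendsto (hg : Gauge om) : Tendsto om (𝓝 0) (𝓝 0) := by
  obtain ⟨K, hK⟩ := hg.lip
  have := hK.continuous.tendsto 0
  rwa [hg.zero] at this

theorem gauge_clm (L : E →L[ℝ] ℝ) : Gauge (fun w => L w) := ⟨by simp, ⟨_, L.lipschitz⟩⟩

theorem gauge_norm_clm (L : E →L[ℝ] G) : Gauge (fun w => ‖L w‖) :=
  ⟨by simp, ⟨_, lipschitzWith_one_norm.comp L.lipschitz⟩⟩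

theorem gauge_coord {ι : Type*} [Fintype ι] (s : ι) : Gauge (fun w : ι → ℝ => w s) :=
  gauge_clm (ContinuousLinearMap.proj (R := ℝ) (φ := fun _ : ι => ℝ) s)

section Ord

omit [NormedSpace ℝ E] [NormedSpace ℝ F]

theorem Ord.mono (hg : Gauge om) {N M : ℕ} (hNM : N ≤ M) {h : E → F} (H : Ord om M h) :
    Ord om N h := by
  refine IsBigO.trans H ?_
  obtain ⟨d, rfl⟩ := Nat.exists_eq_add_of_le hNM
  have h1 : (fun w => om w ^ d) =O[𝓝 0] fun _ => (1 : ℝ) :=
    (hg.tendsto.pow d).isBigO_one ℝ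
  have := (isBigO_refl (fun w => om w ^ N) (𝓝 0)).mul h1
  simpa [pow_add] using this

theorem Ord.zero (N : ℕ) : Ord om N (fun _ => (0 : F)) := isBigO_zero _ _

theorem Ord.add {N : ℕ} {h k : E → F} (H : Ord om N h) (K : Ord om N k) :
    Ord om N fun w => h w + k w := IsBigO.add H K

theorem Ord.sub {N : ℕ} {h k : E → F} (H : Ord om N h) (K : Ord om N k) :
    Ord om N fun w => h w - k w := IsBigO.sub H K

theorem Ord.neg {N : ℕ} {h : E → F} (H : Ord om N h) : Ord om N fun w => -h w :=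
  IsBigO.neg_left H

theorem Ord.symm {N : ℕ} {h k : E → F} (H : Ord om N fun w => h w - k w) :
    Ord om N fun w => k w - h w := IsBigO.symm H

theorem Ord.tri {N : ℕ} {h k l : E → F} (H : Ord om N fun w => h w - k w)
    (K : Ord om N fun w => k w - l w) : Ord om N fun w => h w - l w := IsBigO.triangle H K

theorem Ord.congr' {N : ℕ} {h k : E → F} (H : Ord om N h) (e : h =ᶠ[𝓝 0] k) : Ord om N k :=
  IsBigO.congr' H e EventuallyEq.rfl

theorem Ord.congr {N : ℕ} {h k : E → F} (H : Ord om N h) (e : ∀ w, h w = k w) : Ord om N k :=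
  H.congr' (Eventually.of_forall e)

omit [NormedSpace ℝ G] in
theorem Ord.of_isBigO {N : ℕ} {h : E → F} {k : E → G} (H : Ord om N h) (e : k =O[𝓝 0] h) :
    Ord om N k := IsBigO.trans e H

theorem Ord.sum {ι : Type*} {N : ℕ} {s : Finset ι} {h : ι → E → F} (H : ∀ i ∈ s, Ord om N (h i)) :
    Ord om N fun w => ∑ i ∈ s, h i w := by
  have := IsBigO.sum H
  rwa [Finset.sum_fn] at this

/-- at points where the gauge vanishes an `O(om ^ (N+1))` function vanishes -/
theorem Ord.eq_zero {N : ℕ} {h : E → F} (H : Ord om (N + 1) h) :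
    ∀ᶠ w in 𝓝 0, om w = 0 → h w = 0 := by
  filter_upwards [IsBigO.eq_zero_imp H] with w hw h0
  exact hw (by simp [h0])

theorem Ord.apply_zero (hg : Gauge om) {N : ℕ} {h : E → F} (H : Ord om (N + 1) h) : h 0 = 0 :=
  H.eq_zero.self_of_nhds hg.zero

theorem Ord.tendsto (hg : Gauge om) {N : ℕ} {h : E → F} (H : Ord om (N + 1) h) :
    Tendsto h (𝓝 0) (𝓝 0) := by
  refine IsBigO.trans_tendsto H ?_
  simpa using hg.tendsto.pow (N + 1)

theorem Ord.pow_self (N : ℕ) : Ord om N fun w => om w ^ N := isBigO_refl _ _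

theorem Ord.mul {N M : ℕ} {h k : E → ℝ} (H : Ord om N h) (K : Ord om M k) :
    Ord om (N + M) fun w => h w * k w := by
  simpa [Ord, pow_add] using IsBigO.mul H K

omit [NormedSpace ℝ E'] in
theorem Ord.comp {N : ℕ} {h : E → F} {π : E' → E} (H : Ord om N h)
    (hπ : Tendsto π (𝓝 0) (𝓝 0)) (ho : (fun w => om (π w)) =O[𝓝 0] om') :
    Ord om' N fun w => h (π w) :=
  IsBigO.trans (IsBigO.comp_tendsto H hπ) (ho.pow N)

end Ord

omit [NormedSpace ℝ E] in
theorem Ord.smul_bdd {N : ℕ} {c : E → ℝ} {h : E → F} (C : c =O[𝓝 0] fun _ => (1 : ℝ))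
    (H : Ord om N h) : Ord om N fun w => c w • h w := by
  simpa [Ord] using IsBigO.smul C H

omit [NormedSpace ℝ E] in
theorem Ord.smul_bdd' {N : ℕ} {c : E → ℝ} {h : E → F} (C : Ord om N c)
    (H : h =O[𝓝 0] fun _ => (1 : ℝ)) : Ord om N fun w => c w • h w := by
  simpa [Ord] using IsBigO.smul C H

omit [NormedSpace ℝ E] in
theorem Ord.clm {N : ℕ} {h : E → F} (H : Ord om N h) (L : F →L[ℝ] G) :
    Ord om N fun w => L (h w) := H.of_isBigO (L.isBigO_comp _ _)

section Null

omit [NormedSpace ℝ E] [NormedSpace ℝ F]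

theorem Null.zero : Null om (fun _ => (0 : F)) := fun N => Ord.zero N

theorem Null.add {h k : E → F} (H : Null om h) (K : Null om k) : Null om fun w => h w + k w :=
  fun N => (H N).add (K N)

theorem Null.sub {h k : E → F} (H : Null om h) (K : Null om k) : Null om fun w => h w - k w :=
  fun N => (H N).sub (K N)

theorem Null.neg {h : E → F} (H : Null om h) : Null om fun w => -h w := fun N => (H N).neg

theorem Null.symm {h k : E → F} (H : Null om fun w => h w - k w) :
    Null om fun w => k w - h w := fun N => (H N).symm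

theorem Null.tri {h k l : E → F} (H : Null om fun w => h w - k w)
    (K : Null om fun w => k w - l w) : Null om fun w => h w - l w := fun N => (H N).tri (K N)

theorem Null.refl (h : E → F) : Null om fun w => h w - h w := by
  simpa using (Null.zero : Null om fun _ => (0 : F))

theorem Null.congr' {h k : E → F} (H : Null om h) (e : h =ᶠ[𝓝 0] k) : Null om k :=
  fun N => (H N).congr' e

theorem Null.congr {h k : E → F} (H : Null om h) (e : ∀ w, h w = k w) : Null om k :=
  fun N => (H N).congr e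

theorem Null.of_eventuallyEq {h k : E → F} (e : h =ᶠ[𝓝 0] k) : Null om fun w => h w - k w :=
  (Null.refl h).congr' (by filter_upwards [e] with w hw; rw [hw])

omit [NormedSpace ℝ G] in
theorem Null.of_isBigO {h : E → F} {k : E → G} (H : Null om h) (e : k =O[𝓝 0] h) : Null om k :=
  fun N => (H N).of_isBigO e

theorem Null.sum {ι : Type*} {s : Finset ι} {h : ι → E → F} (H : ∀ i ∈ s, Null om (h i)) :
    Null om fun w => ∑ i ∈ s, h i w := fun N => Ord.sum fun i hi => H i hi N

theorem Null.eq_zero {h : E → F} (H : Null om h) : ∀ᶠ w in 𝓝 0, om w = 0 → h w = 0 :=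
  (H 1).eq_zero

omit [NormedSpace ℝ E'] in
theorem Null.comp {h : E → F} {π : E' → E} (H : Null om h) (hπ : Tendsto π (𝓝 0) (𝓝 0))
    (ho : (fun w => om (π w)) =O[𝓝 0] om') : Null om' fun w => h (π w) :=
  fun N => (H N).comp hπ ho

/-- `h` and `h - k` null give `k` null -/
theorem Null.of_sub {h k : E → F} (H : Null om h) (K : Null om fun w => h w - k w) : Null om k :=
  (H.sub K).congr fun w => by abel

end Null

theorem IsPA.of_analytic {h : E → F} (H : AnalyticAt ℝ h 0) : IsPA om h :=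
  fun N => ⟨h, H, Null.refl h N⟩

theorem IsPA.const (c : F) : IsPA om fun _ => c := IsPA.of_analytic analyticAt_const

theorem IsPA.id : IsPA om fun w : E => w := IsPA.of_analytic analyticAt_id

theorem IsPA.coord {ι : Type*} [Fintype ι] {om : (ι → ℝ) → ℝ} (i : ι) : IsPA om fun w => w i :=
  IsPA.of_analytic ((ContinuousLinearMap.proj (R := ℝ) (φ := fun _ : ι => ℝ) i).analyticAt 0)

theorem Null.isPA {h : E → F} (H : Null om h) : IsPA om h :=
  fun N => ⟨fun _ => 0, analyticAt_const, (H N).congr fun w => by simp⟩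

theorem IsPA.congr_null {h k : E → F} (H : IsPA om h) (e : Null om fun w => h w - k w) :
    IsPA om k := fun N => by
  obtain ⟨l, hl, ho⟩ := H N
  exact ⟨l, hl, (e N).symm.tri ho⟩

theorem IsPA.congr' {h k : E → F} (H : IsPA om h) (e : h =ᶠ[𝓝 0] k) : IsPA om k :=
  H.congr_null (Null.of_eventuallyEq e)

theorem IsPA.congr {h k : E → F} (H : IsPA om h) (e : ∀ w, h w = k w) : IsPA om k :=
  H.congr' (Eventually.of_forall e)

theorem App.mono (hg : Gauge om) {N M : ℕ} (hNM : N ≤ M) {h k : E → F} (H : App om M h k) :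
    App om N h k := ⟨H.1, H.2.mono hg hNM⟩

theorem App.apply_zero (hg : Gauge om) {N : ℕ} {h k : E → F} (H : App om (N + 1) h k) :
    h 0 = k 0 := sub_eq_zero.1 (H.2.apply_zero hg)

theorem IsPA.continuousAt (hg : Gauge om) {h : E → F} (H : IsPA om h) : ContinuousAt h 0 := by
  obtain ⟨k, hk⟩ := H 1
  have h1 := (hk.2.tendsto hg).add hk.1.continuousAt.tendsto
  have h2 := hk.apply_zero hg
  simpa [ContinuousAt, h2] using h1

theorem IsPA.tendsto (hg : Gauge om) {h : E → F} (H : IsPA om h) (h0 : h 0 = 0) :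
    Tendsto h (𝓝 0) (𝓝 0) := by
  have := (H.continuousAt hg).tendsto
  rwa [h0] at this

theorem IsPA.bdd (hg : Gauge om) {h : E → F} (H : IsPA om h) : h =O[𝓝 0] fun _ => (1 : ℝ) :=
  (H.continuousAt hg).tendsto.isBigO_one ℝ

theorem IsPA.add {h k : E → F} (H : IsPA om h) (K : IsPA om k) : IsPA om fun w => h w + k w :=
  fun N => by
  obtain ⟨a, ha, ha'⟩ := H N
  obtain ⟨b, hb, hb'⟩ := K N
  exact ⟨fun w => a w + b w, ha.add hb, (ha'.add hb').congr fun w => by beta_reduce; abel⟩

theorem IsPA.neg {h : E → F} (H : IsPA om h) : IsPA om fun w => -h w := fun N => by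
  obtain ⟨a, ha, ha'⟩ := H N
  exact ⟨fun w => -a w, ha.neg, ha'.neg.congr fun w => by beta_reduce; abel⟩

theorem IsPA.sub {h k : E → F} (H : IsPA om h) (K : IsPA om k) : IsPA om fun w => h w - k w :=
  (H.add K.neg).congr fun w => by abel

theorem IsPA.sum {ι : Type*} {s : Finset ι} {h : ι → E → F} (H : ∀ i ∈ s, IsPA om (h i)) :
    IsPA om fun w => ∑ i ∈ s, h i w := by
  classical
  induction s using Finset.induction_on with
  | empty => simpa using IsPA.const (om := om) (0 : F)
  | insert i s hi ih =>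
    simp only [Finset.sum_insert hi]
    exact (H i (Finset.mem_insert_self _ _)).add
      (ih fun j hj => H j (Finset.mem_insert_of_mem hj))

omit [NormedSpace ℝ E] in
/-- an analytic function is locally Lipschitz: big-O form -/
theorem analytic_sub_isBigO {φ : F → G} {c : F} (hφ : AnalyticAt ℝ φ c) {l : Filter E}
    {a b : E → F} (ha : Tendsto a l (𝓝 c)) (hb : Tendsto b l (𝓝 c)) :
    (fun w => φ (a w) - φ (b w)) =O[l] fun w => a w - b w :=
  (hφ.hasStrictFDerivAt.isBigO_sub.comp_tendsto (ha.prodMk_nhds hb))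

/-- outer composition with an analytic function -/
theorem IsPA.analytic_comp (hg : Gauge om) {h : E → F} (H : IsPA om h) {φ : F → G}
    (hφ : AnalyticAt ℝ φ (h 0)) : IsPA om fun w => φ (h w) := fun N => by
  obtain ⟨k, hk⟩ := H (N + 1)
  have h0 := hk.apply_zero hg
  refine ⟨fun w => φ (k w), AnalyticAt.comp (g := φ) (f := k) (h0 ▸ hφ) hk.1, ?_⟩
  refine (hk.2.mono hg (Nat.le_succ N)).of_isBigO ?_
  exact analytic_sub_isBigO hφ (H.continuousAt hg).tendsto (h0 ▸ hk.1.continuousAt.tendsto)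

theorem IsPA.prodMk {h : E → F} {k : E → G} (H : IsPA om h) (K : IsPA om k) :
    IsPA om fun w => (h w, k w) := fun N => by
  obtain ⟨a, ha, ha'⟩ := H N
  obtain ⟨b, hb, hb'⟩ := K N
  exact ⟨fun w => (a w, b w), ha.prod hb, IsBigO.prod_left ha' hb'⟩

theorem IsPA.pi {ι : Type*} [Fintype ι] {h : E → ι → F} (H : ∀ i, IsPA om fun w => h w i) :
    IsPA om h := fun N => by
  choose k hk using fun i => H i N
  refine ⟨fun w i => k i w, AnalyticAt.pi fun i => (hk i).1, ?_⟩
  exact isBigO_pi.2 fun i => (hk i).2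

theorem IsPA.clm {h : E → F} (H : IsPA om h) (L : F →L[ℝ] G) : IsPA om fun w => L (h w) :=
  fun N => by
  obtain ⟨a, ha, ha'⟩ := H N
  exact ⟨fun w => L (a w), (L.analyticAt _).comp ha, (ha'.clm L).congr fun w => by simp⟩

theorem IsPA.apply {ι : Type*} [Fintype ι] {h : E → ι → F} (H : IsPA om h) (i : ι) :
    IsPA om fun w => h w i :=
  H.clm (ContinuousLinearMap.proj (R := ℝ) (φ := fun _ : ι => F) i)

theorem IsPA.smul (hg : Gauge om) {c : E → ℝ} {h : E → F} (C : IsPA om c) (H : IsPA om h) :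
    IsPA om fun w => c w • h w :=
  (C.prodMk H).analytic_comp hg (φ := fun p : ℝ × F => p.1 • p.2)
    (analyticAt_fst.smul analyticAt_snd)

theorem IsPA.mul (hg : Gauge om) {h k : E → ℝ} (H : IsPA om h) (K : IsPA om k) :
    IsPA om fun w => h w * k w := H.smul hg K

theorem IsPA.pow (hg : Gauge om) {h : E → ℝ} (H : IsPA om h) (n : ℕ) :
    IsPA om fun w => h w ^ n :=
  H.analytic_comp hg (φ := fun x : ℝ => x ^ n) (analyticAt_id.pow n)

theorem IsPA.prod (hg : Gauge om) {ι : Type*} {s : Finset ι} {h : ι → E → ℝ}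
    (H : ∀ i ∈ s, IsPA om (h i)) : IsPA om fun w => ∏ i ∈ s, h i w := by
  classical
  induction s using Finset.induction_on with
  | empty => simpa using IsPA.const (om := om) (1 : ℝ)
  | insert i s hi ih =>
    simp only [Finset.prod_insert hi]
    exact (H i (Finset.mem_insert_self _ _)).mul hg
      (ih fun j hj => H j (Finset.mem_insert_of_mem hj))

theorem IsPA.inv (hg : Gauge om) {u : E → ℝ} (H : IsPA om u) (h0 : u 0 ≠ 0) :
    IsPA om fun w => (u w)⁻¹ :=
  H.analytic_comp hg (φ := fun x : ℝ => x⁻¹) (analyticAt_id.inv h0)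

theorem IsPA.ne_zero (hg : Gauge om) {u : E → F} (H : IsPA om u) (h0 : u 0 ≠ 0) :
    ∀ᶠ w in 𝓝 0, u w ≠ 0 := (H.continuousAt hg).eventually_ne h0

theorem Null.smul (hg : Gauge om) {c : E → ℝ} {h : E → F} (C : IsPA om c) (H : Null om h) :
    Null om fun w => c w • h w := fun N => (H N).smul_bdd (C.bdd hg)

theorem Null.smul' (hg : Gauge om) {c : E → ℝ} {h : E → F} (C : Null om c) (H : IsPA om h) :
    Null om fun w => c w • h w := fun N => (C N).smul_bdd' (H.bdd hg)

theorem Null.mul_left (hg : Gauge om) {c h : E → ℝ} (C : IsPA om c) (H : Null om h) :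
    Null om fun w => c w * h w := Null.smul hg C H

theorem Null.mul_right (hg : Gauge om) {c h : E → ℝ} (C : Null om c) (H : IsPA om h) :
    Null om fun w => c w * h w := Null.smul' hg C H

/-- congruence of products modulo `Null` -/
theorem Null.mul_congr (hg : Gauge om) {a a' b b' : E → ℝ} (ha : IsPA om a) (hb' : IsPA om b')
    (A : Null om fun w => a w - a' w) (B : Null om fun w => b w - b' w) :
    Null om fun w => a w * b w - a' w * b' w :=
  ((B.mul_left hg ha).add (A.mul_right hg hb')).congr fun w => by ring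

/-- congruence under an analytic outer function -/
theorem Null.analytic_congr (hg : Gauge om) {a b : E → F} (ha : IsPA om a)
    (A : Null om fun w => a w - b w) {φ : F → G} (hφ : AnalyticAt ℝ φ (a 0)) :
    Null om fun w => φ (a w) - φ (b w) := by
  have hb := ha.congr_null A
  have h0 : a 0 = b 0 := sub_eq_zero.1 ((A 1).apply_zero hg)
  exact A.of_isBigO (analytic_sub_isBigO hφ (ha.continuousAt hg).tendsto
    (h0 ▸ (hb.continuousAt hg).tendsto))

/-- **composition** -/
theorem IsPA.comp (hg' : Gauge om') {h : E → F} {π : E' → E} (H : IsPA om h) (P : IsPA om' π)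
    (h0 : π 0 = 0) (ho : (fun w => om (π w)) =O[𝓝 0] om') : IsPA om' fun w => h (π w) := fun N => by
  obtain ⟨k, hk⟩ := H N
  obtain ⟨l, hl⟩ := (P.analytic_comp hg' (φ := k) (h0 ▸ hk.1)) N
  exact ⟨l, hl.1, (hk.2.comp (P.tendsto hg' h0) ho).tri hl.2⟩

/-- on the zero set of the gauge a pro-analytic germ is analytic -/
theorem IsPA.analyticAt_comp {h : E → F} (H : IsPA om h) {π : E' → E} (P : AnalyticAt ℝ π 0)
    (h0 : π 0 = 0) (ho : ∀ᶠ w in 𝓝 0, om (π w) = 0) : AnalyticAt ℝ (fun w => h (π w)) 0 := by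
  obtain ⟨k, hk⟩ := H 1
  have ht : Tendsto π (𝓝 0) (𝓝 0) := by simpa [h0] using P.continuousAt.tendsto
  refine (AnalyticAt.comp (g := k) (f := π) (h0 ▸ hk.1) P).congr ?_
  filter_upwards [ht.eventually hk.2.eq_zero, ho] with w h1 h2
  exact (sub_eq_zero.1 (h1 h2)).symm

/-! ### Realisation -/

omit [NormedSpace ℝ E] [NormedSpace ℝ F] in
/-- **realisation**: a sequence that is Cauchy for the powers of the gauge has a limit function -/
theorem realise_seq (hg : Gauge om) (k : ℕ → E → F)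
    (hk : ∀ M, Ord om M fun w => k (M + 1) w - k M w) :
    ∃ h : E → F, ∀ M, Ord om M fun w => h w - k M w := by
  classical
  -- constants and radii
  have h1 : ∀ M, ∃ r > 0, ∀ w : E, ‖w‖ < r →
      |om w| ≤ 1 ∧ ‖k (M + 2) w - k (M + 1) w‖ ≤ (1 / 2) ^ M * |om w| ^ M := by
    intro M
    obtain ⟨C, hC, hb⟩ := (hk (M + 1)).exists_pos
    have e1 : ∀ᶠ w in 𝓝 (0 : E), |om w| ≤ min 1 ((1 / 2) ^ M / C) := by
      have := hg.tendsto.abs
      rw [abs_zero] at this
      exact this.eventually (ge_mem_nhds (lt_min one_pos (by positivity)))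
    have e2 := (e1.and hb.bound)
    obtain ⟨r, hr, hb2⟩ := Metric.eventually_nhds_iff.1 e2
    refine ⟨r, hr, fun w hw => ?_⟩
    obtain ⟨ha, hb3⟩ := hb2 (y := w) (by simpa using hw)
    refine ⟨ha.trans (min_le_left _ _), hb3.trans ?_⟩
    rw [Real.norm_eq_abs, abs_pow, pow_succ]
    have h4 : C * |om w| ≤ (1 / 2) ^ M := by
      have := ha.trans (min_le_right _ _)
      rwa [le_div_iff₀' hC] at this
    calc C * (|om w| ^ M * |om w|) = (C * |om w|) * |om w| ^ M := by ring
      _ ≤ _ := by gcongr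
  choose r hr hb using h1
  -- the index used at `w`
  let P : E → ℕ → Prop := fun w n => ∀ j < n, ‖w‖ < r j ∧ ‖w‖ < 1 / ((j : ℝ) + 1)
  let J : E → ℕ := fun w => Nat.findGreatest (P w) ⌈1 / ‖w‖⌉₊
  have hPJ : ∀ w, P w (J w) := fun w =>
    Nat.findGreatest_spec (P := P w) (m := 0) (Nat.zero_le _) (fun j hj => absurd hj (by omega))
  have hJ : ∀ w n, w ≠ 0 → P w n → n ≤ J w := by
    intro w n hw hn
    refine Nat.le_findGreatest ?_ hn
    rcases n with _ | n
    · exact Nat.zero_le _
    · have h2 := (hn n (Nat.lt_succ_self n)).2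
      have h3 : 0 < ‖w‖ := norm_pos_iff.2 hw
      have h4 : ((n + 1 : ℕ) : ℝ) ≤ 1 / ‖w‖ := by
        rw [lt_div_iff₀ (by positivity)] at h2
        rw [le_div_iff₀ h3]; push_cast; linarith
      exact_mod_cast h4.trans (Nat.le_ceil _)
  refine ⟨fun w => k (J w + 1) w, fun M => ?_⟩
  -- telescoping
  have tel : ∀ w n, P w n → M ≤ n →
      ‖k (n + 1) w - k (M + 1) w‖ ≤ (2 - 2 * (1 / 2) ^ n) * |om w| ^ M := by
    intro w n hn hMn
    induction n, hMn using Nat.le_induction with
    | base =>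
      have : (1 / 2 : ℝ) ^ M ≤ 1 := pow_le_one₀ (by norm_num) (by norm_num)
      simp only [sub_self, norm_zero]
      exact mul_nonneg (by linarith) (by positivity)
    | succ n hMn ih =>
      have h1 := ih fun j hj => hn j (by omega)
      obtain ⟨h2, h3⟩ := hb n w (hn n (Nat.lt_succ_self n)).1
      have h4 : |om w| ^ n ≤ |om w| ^ M := pow_le_pow_of_le_one (abs_nonneg _) h2 hMn
      calc ‖k (n + 1 + 1) w - k (M + 1) w‖
          ≤ ‖k (n + 2) w - k (n + 1) w‖ + ‖k (n + 1) w - k (M + 1) w‖ :=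
            norm_sub_le_norm_sub_add_norm_sub _ _ _
        _ ≤ (1 / 2) ^ n * |om w| ^ M + (2 - 2 * (1 / 2) ^ n) * |om w| ^ M := by
            gcongr
            exact h3.trans (by gcongr)
        _ = _ := by rw [pow_succ]; ring
  have z0 : ∀ n, k (n + 1) 0 = k 1 0 := by
    intro n
    induction n with
    | zero => rfl
    | succ n ih => rw [← ih]; exact sub_eq_zero.1 ((hk (n + 1)).apply_zero hg)
  refine Ord.tri (k := k (M + 1)) ?_ (hk M)
  refine IsBigO.of_bound 2 ?_
  have ev : ∀ᶠ w in 𝓝 (0 : E), P w M := by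
    have : ∀ j ∈ Finset.range M, ∀ᶠ w in 𝓝 (0 : E), ‖w‖ < r j ∧ ‖w‖ < 1 / ((j : ℝ) + 1) := by
      intro j _
      have hn : Tendsto (fun w : E => ‖w‖) (𝓝 0) (𝓝 0) := tendsto_norm_zero
      exact (hn.eventually (gt_mem_nhds (hr j))).and (hn.eventually (gt_mem_nhds (by positivity)))
    filter_upwards [(Finset.eventually_all _).2 this] with w hw j hj
    exact hw j (Finset.mem_range.2 hj)
  filter_upwards [ev] with w hw
  by_cases h0 : w = 0
  · subst h0
    simp only [z0, sub_self, norm_zero]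
    positivity
  · refine (tel w (J w) (hPJ w) (hJ w M h0 hw)).trans ?_
    rw [Real.norm_eq_abs, abs_pow]
    have : (0 : ℝ) ≤ 2 * (1 / 2) ^ J w := by positivity
    gcongr
    linarith

/-- realisation through a relation: `R N k` says "`k` is an admissible approximation of order `N`"; admissible
approximations exist and two of them (of orders `≥ N`) agree to order `N` -/
theorem realise (hg : Gauge om) (R : ℕ → (E → F) → Prop) (ex : ∀ N, ∃ k, AnalyticAt ℝ k 0 ∧ R N k)
    (un : ∀ N k k', AnalyticAt ℝ k 0 → AnalyticAt ℝ k' 0 → R N k → R (N + 1) k' →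
      Ord om N fun w => k' w - k w) :
    ∃ h : E → F, IsPA om h ∧ ∀ N, ∃ k, R N k ∧ App om N h k := by
  choose k hk hR using ex
  obtain ⟨h, hh⟩ := realise_seq hg k fun M => un M _ _ (hk M) (hk (M + 1)) (hR M) (hR (M + 1))
  exact ⟨h, fun N => ⟨k N, hk N, hh N⟩, fun N => ⟨k N, hR N, hk N, hh N⟩⟩

end Crest.Agent.N250.PA
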