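import Crest.Agent.N250.L.PA0

/-!
# Row 250, block (L): derivative of pro-analytic germs, chain rule (helper53)
-/

set_option autoImplicit false

open Filter Topology Asymptotics

namespace Crest.Agent.N250.PA

variable {E E' F G : Type*} [NormedAddCommGroup E] [NormedSpace ℝ E] [NormedAddCommGroup E']
  [NormedSpace ℝ E'] [NormedAddCommGroup F] [NormedSpace ℝ F] [NormedAddCommGroup G] [NormedSpace ℝ G]
variable {om : E → ℝ} {om' : E' → ℝ}

/-- interpolation: an analytic `O(om ^ (2N))` function has an `O(om ^ N)` derivative -/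
theorem Ord.fderiv [CompleteSpace F] (hg : Gauge om) {N : ℕ} {k : E → F} (hk : AnalyticAt ℝ k 0)
    (H : Ord om (2 * N) k) : Ord om N (fderiv ℝ k) := by
  rcases N with _ | N
  · simpa [Ord] using hk.fderiv.continuousAt.tendsto.isBigO_one ℝ
  set n := N + 1 with hn
  obtain ⟨K, hK⟩ := hg.lip
  obtain ⟨C, hC, hb⟩ := IsBigO.exists_pos H
  obtain ⟨L, t, ht, hL⟩ := (hk.fderiv.contDiffAt (n := 1)).exists_lipschitzOnWith
  have e1 := (hb.bound.and (hk.eventually_analyticAt.and ht))
  obtain ⟨r, hr, hb2⟩ := Metric.eventually_nhds_iff_ball.1 e1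
  set δ := min (r / 2) 1 with hδ
  have hδ0 : 0 < δ := lt_min (by linarith) one_pos
  set A : ℝ := L + C * (2 ^ n * (1 + K ^ n)) ^ 2 + C with hA
  have key : ∀ w ∈ Metric.ball (0 : E) (r / 2), ∀ h : ℝ, 0 < h → h ≤ δ → |om w| ^ n ≤ h →
      ‖_root_.fderiv ℝ k w‖ ≤ A * h := by
    intro w hw h h0 hh ha
    have hsub : Metric.closedBall w h ⊆ Metric.ball 0 r := by
      intro z hz
      rw [Metric.mem_ball] at hw ⊢
      rw [Metric.mem_closedBall] at hz
      have := dist_triangle z w 0
      have := hh.trans (min_le_left _ _)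
      linarith
    have hwr : w ∈ Metric.ball (0 : E) r := hsub (Metric.mem_closedBall_self h0.le)
    refine ContinuousLinearMap.opNorm_le_of_unit_norm (by positivity) fun v hv => ?_
    have hy : w + h • v ∈ Metric.closedBall w h := by
      simp [norm_smul, hv, abs_of_pos h0]
    have mv := (convex_closedBall w h).norm_image_sub_le_of_norm_fderiv_le' (𝕜 := ℝ) (f := k)
      (φ := _root_.fderiv ℝ k w) (C := L * h)
      (fun z hz => (hb2 z (hsub hz)).2.1.differentiableAt)
      (fun z hz => by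
        have := hL.dist_le_mul z (hb2 z (hsub hz)).2.2 w (hb2 w hwr).2.2
        rw [dist_eq_norm] at this
        exact this.trans (mul_le_mul_of_nonneg_left (Metric.mem_closedBall.1 hz) L.2))
      (Metric.mem_closedBall_self h0.le) hy
    simp only [add_sub_cancel_left, map_smul, norm_smul, hv, Real.norm_eq_abs, abs_of_pos h0,
      mul_one] at mv
    have h1 : h ≤ 1 := hh.trans (min_le_right _ _)
    have b1 : ‖k w‖ ≤ C * h ^ 2 := by
      refine (hb2 w hwr).1.trans ?_
      rw [Real.norm_eq_abs, abs_pow, mul_comm 2 n, pow_mul]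
      gcongr
    have b2 : ‖k (w + h • v)‖ ≤ C * (2 ^ n * (1 + K ^ n)) ^ 2 * h ^ 2 := by
      refine (hb2 _ (hsub hy)).1.trans ?_
      have c1 : |om (w + h • v)| ≤ |om w| + K * h := by
        have := hK.dist_le_mul (w + h • v) w
        rw [Real.dist_eq, dist_eq_norm, add_sub_cancel_left, norm_smul, hv, Real.norm_eq_abs,
          abs_of_pos h0, mul_one] at this
        have h3 := abs_sub_abs_le_abs_sub (om (w + h • v)) (om w)
        linarith
      have c2 : |om (w + h • v)| ^ n ≤ 2 ^ n * (1 + K ^ n) * h := by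
        calc |om (w + h • v)| ^ n ≤ (|om w| + K * h) ^ n := by gcongr
          _ ≤ 2 ^ (n - 1) * (|om w| ^ n + (K * h) ^ n) :=
              add_pow_le (abs_nonneg _) (by positivity) n
          _ ≤ 2 ^ n * (h + K ^ n * h) := by
              gcongr
              · norm_num
              · omega
              · rw [mul_pow]
                gcongr
                exact pow_le_of_le_one h0.le h1 (by omega)
          _ = _ := by ring
      rw [Real.norm_eq_abs, abs_pow, mul_comm 2 n, pow_mul, mul_assoc, ← mul_pow]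
      gcongr
    have b3 : h * ‖_root_.fderiv ℝ k w v‖ ≤ A * h * h := by
      have e : h • _root_.fderiv ℝ k w v = k (w + h • v) - k w -
          (k (w + h • v) - k w - h • _root_.fderiv ℝ k w v) := by abel
      have := norm_sub_le (k (w + h • v) - k w) (k (w + h • v) - k w - h • _root_.fderiv ℝ k w v)
      rw [← e, norm_smul, Real.norm_eq_abs, abs_of_pos h0] at this
      have h4 := norm_sub_le (k (w + h • v)) (k w)
      rw [hA]; nlinarith
    rw [mul_comm (A * h) h] at b3
    exact le_of_mul_le_mul_left b3 h0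
  refine IsBigO.of_bound A ?_
  have e2 : ∀ᶠ w in 𝓝 (0 : E), |om w| ^ n < δ := by
    have := hg.tendsto.abs.pow n
    rw [abs_zero, hn, zero_pow (by omega)] at this
    exact this.eventually (gt_mem_nhds hδ0)
  filter_upwards [e2, Metric.ball_mem_nhds (0 : E) (half_pos hr)] with w h1 h2
  rw [Real.norm_eq_abs, abs_pow]
  have hA0 : 0 ≤ A := by positivity
  refine le_of_forall_pos_le_add fun ε hε => ?_
  set η := min (δ - |om w| ^ n) (ε / (A + 1)) with hη
  have hη0 : 0 < η := lt_min (by linarith) (by positivity)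
  have := key w h2 (|om w| ^ n + η) (by positivity) (by have := min_le_left (δ - |om w| ^ n) (ε / (A + 1)); linarith)
    (by linarith)
  have h5 : η ≤ ε / (A + 1) := min_le_right _ _
  rw [le_div_iff₀ (by positivity)] at h5
  nlinarith

/-- `h'` is a derivative of the pro-analytic germ `h` -/
def Der (om : E → ℝ) (h : E → F) (h' : E → E →L[ℝ] F) : Prop :=
  ∀ N : ℕ, ∃ k, App om N h k ∧ Ord om N fun w => h' w - fderiv ℝ k w

theorem Der.isPA {h : E → F} {h' : E → E →L[ℝ] F} (H : Der om h h') : IsPA om h := fun N =>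
  (H N).imp fun _ hk => hk.1

theorem Der.isPA' [CompleteSpace F] {h : E → F} {h' : E → E →L[ℝ] F} (H : Der om h h') :
    IsPA om h' := fun N => by
  obtain ⟨k, hk, hk'⟩ := H N
  exact ⟨_, hk.1.fderiv, hk'⟩

theorem App.fderiv_sub [CompleteSpace F] (hg : Gauge om) {N : ℕ} {h k l : E → F}
    (hk : App om (2 * N) h k) (hl : App om (2 * N) h l) :
    Ord om N fun w => fderiv ℝ l w - fderiv ℝ k w := by
  have := Ord.fderiv hg (hl.1.sub hk.1) (hl.2.symm.tri hk.2)
  refine this.congr' ?_
  filter_upwards [hk.1.eventually_analyticAt, hl.1.eventually_analyticAt] with w h1 h2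
  exact _root_.fderiv_sub h2.differentiableAt h1.differentiableAt

/-- every good approximation of `h` computes the derivative -/
theorem Der.ord [CompleteSpace F] (hg : Gauge om) {h k : E → F} {h' : E → E →L[ℝ] F}
    (H : Der om h h') {N : ℕ} (hk : App om (2 * N) h k) :
    Ord om N fun w => h' w - fderiv ℝ k w := by
  obtain ⟨l, hl, hl'⟩ := H (2 * N)
  exact (hl'.mono hg (by omega)).tri (hk.fderiv_sub hg hl)

theorem IsPA.exists_der [CompleteSpace F] (hg : Gauge om) {h : E → F} (H : IsPA om h) :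
    ∃ h', Der om h h' := by
  obtain ⟨h', -, hh⟩ := realise hg (fun N q => ∃ k, App om (2 * N) h k ∧ q = fderiv ℝ k)
    (fun N => by
      obtain ⟨k, hk⟩ := H (2 * N)
      exact ⟨_, hk.1.fderiv, k, hk, rfl⟩)
    (by
      rintro N _ _ - - ⟨k, hk, rfl⟩ ⟨l, hl, rfl⟩
      exact hk.fderiv_sub hg (hl.mono hg (by omega)))
  refine ⟨h', fun N => ?_⟩
  obtain ⟨_, ⟨k, hk, rfl⟩, hq⟩ := hh N
  exact ⟨k, hk.mono hg (by omega), hq.2⟩

theorem Der.unique [CompleteSpace F] (hg : Gauge om) {h : E → F} {a b : E → E →L[ℝ] F}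
    (A : Der om h a) (B : Der om h b) : Null om fun w => a w - b w := fun N => by
  obtain ⟨k, hk⟩ := A.isPA (2 * N)
  exact (A.ord hg hk).tri (B.ord hg hk).symm

theorem Der.of_analytic {h : E → F} (H : AnalyticAt ℝ h 0) : Der om h (fderiv ℝ h) :=
  fun N => ⟨h, ⟨H, Null.refl h N⟩, Null.refl _ N⟩

theorem Der.congr_null {h k : E → F} {h' k' : E → E →L[ℝ] F} (H : Der om h h')
    (e : Null om fun w => h w - k w) (e' : Null om fun w => h' w - k' w) : Der om k k' :=
  fun N => by
  obtain ⟨l, hl, hl'⟩ := H N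
  exact ⟨l, ⟨hl.1, (e N).symm.tri hl.2⟩, (e' N).symm.tri hl'⟩

theorem Der.congr' {h k : E → F} {h' k' : E → E →L[ℝ] F} (H : Der om h h')
    (e : h =ᶠ[𝓝 0] k) (e' : h' =ᶠ[𝓝 0] k') : Der om k k' :=
  H.congr_null (Null.of_eventuallyEq e) (Null.of_eventuallyEq e')

theorem Der.const (c : F) : Der om (fun _ => c) (fun _ => 0) :=
  (Der.of_analytic analyticAt_const).congr' EventuallyEq.rfl (Eventually.of_forall fun w => by simp)

theorem Der.clm (L : E →L[ℝ] F) : Der om (fun w => L w) (fun _ => L) :=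
  (Der.of_analytic (L.analyticAt 0)).congr' EventuallyEq.rfl
    (Eventually.of_forall fun _ => L.fderiv)

theorem Null.der {h : E → F} (H : Null om h) : Der om h fun _ => 0 :=
  (Der.const (0 : F)).congr_null (H.neg.congr fun w => by simp) (Null.refl _)

/-- the derivative of a null germ is null -/
theorem Der.null [CompleteSpace F] (hg : Gauge om) {h : E → F} {h' : E → E →L[ℝ] F}
    (D : Der om h h') (H : Null om h) : Null om h' :=
  (D.unique hg H.der).congr fun w => by simp

/-- congruent germs have congruent derivatives -/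
theorem Der.null_congr [CompleteSpace F] (hg : Gauge om) {h k : E → F} {h' k' : E → E →L[ℝ] F}
    (D : Der om h h') (D' : Der om k k') (e : Null om fun w => h w - k w) :
    Null om fun w => h' w - k' w :=
  (D.congr_null e (Null.refl _)).unique hg D'

theorem Der.add [CompleteSpace F] {h k : E → F} {h' k' : E → E →L[ℝ] F} (H : Der om h h') (K : Der om k k') :
    Der om (fun w => h w + k w) fun w => h' w + k' w := fun N => by
  obtain ⟨a, ha, ha'⟩ := H N
  obtain ⟨b, hb, hb'⟩ := K N
  refine ⟨fun w => a w + b w, ⟨ha.1.add hb.1, (ha.2.add hb.2).congr fun w => by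
    beta_reduce; abel⟩, (ha'.add hb').congr' ?_⟩
  filter_upwards [ha.1.eventually_analyticAt, hb.1.eventually_analyticAt] with w h1 h2
  rw [fderiv_fun_add h1.differentiableAt h2.differentiableAt]; abel

theorem Der.prodMk [CompleteSpace F] [CompleteSpace G] {h : E → F} {k : E → G} {h' : E → E →L[ℝ] F} {k' : E → E →L[ℝ] G}
    (H : Der om h h') (K : Der om k k') :
    Der om (fun w => (h w, k w)) fun w => (h' w).prod (k' w) := fun N => by
  obtain ⟨a, ha, ha'⟩ := H N
  obtain ⟨b, hb, hb'⟩ := K N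
  refine ⟨fun w => (a w, b w), ⟨ha.1.prod hb.1, IsBigO.prod_left ha.2 hb.2⟩, ?_⟩
  have := Ord.of_isBigO (om := om) (N := N) (IsBigO.prod_left ha' hb')
    (k := fun w => (h' w - fderiv ℝ a w).prod (k' w - fderiv ℝ b w))
    (IsBigO.of_bound 1 (Eventually.of_forall fun w => by
      rw [ContinuousLinearMap.opNorm_prod, one_mul]))
  refine this.congr' ?_
  filter_upwards [ha.1.eventually_analyticAt, hb.1.eventually_analyticAt] with w h1 h2
  rw [h1.differentiableAt.fderiv_prodMk h2.differentiableAt]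
  ext v <;> simp

omit [NormedSpace ℝ E] in
theorem Ord.clm_comp {H : Type*} [NormedAddCommGroup H] [NormedSpace ℝ H] {N : ℕ}
    {a : E → F →L[ℝ] G} {b : E → H →L[ℝ] F} (A : Ord om N a) (B : b =O[𝓝 0] fun _ => (1 : ℝ)) :
    Ord om N fun w => (a w).comp (b w) := by
  have h1 : (fun w => (a w).comp (b w)) =O[𝓝 0] fun w => ‖a w‖ * ‖b w‖ :=
    IsBigO.of_bound 1 (Eventually.of_forall fun w => by
      simpa using (a w).opNorm_comp_le (b w))
  simpa [Ord] using h1.trans (IsBigO.mul (IsBigO.norm_left A) B.norm_left)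

omit [NormedSpace ℝ E] in
theorem Ord.clm_comp' {H : Type*} [NormedAddCommGroup H] [NormedSpace ℝ H] {N : ℕ}
    {a : E → F →L[ℝ] G} {b : E → H →L[ℝ] F} (A : a =O[𝓝 0] fun _ => (1 : ℝ)) (B : Ord om N b) :
    Ord om N fun w => (a w).comp (b w) := by
  have h1 : (fun w => (a w).comp (b w)) =O[𝓝 0] fun w => ‖a w‖ * ‖b w‖ :=
    IsBigO.of_bound 1 (Eventually.of_forall fun w => by
      simpa using (a w).opNorm_comp_le (b w))
  simpa [Ord] using h1.trans (IsBigO.mul A.norm_left (IsBigO.norm_left B))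

/-- chain rule, analytic outer function -/
theorem Der.analytic_comp [CompleteSpace F] [CompleteSpace G] (hg : Gauge om) {h : E → F}
    {h' : E → E →L[ℝ] F} (H : Der om h h') {φ : F → G} (hφ : AnalyticAt ℝ φ (h 0)) :
    Der om (fun w => φ (h w)) fun w => (fderiv ℝ φ (h w)).comp (h' w) := fun N => by
  obtain ⟨k, hk, hk'⟩ := H (N + 1)
  have h0 := hk.apply_zero hg
  have t1 := (H.isPA.continuousAt hg).tendsto
  have t2 : Tendsto k (𝓝 0) (𝓝 (h 0)) := h0 ▸ hk.1.continuousAt.tendsto
  have hN := hk.2.mono hg (Nat.le_succ N)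
  refine ⟨fun w => φ (k w), ⟨AnalyticAt.comp (g := φ) (f := k) (h0 ▸ hφ) hk.1,
    hN.of_isBigO (analytic_sub_isBigO hφ t1 t2)⟩, ?_⟩
  have a1 := Ord.clm_comp (hN.of_isBigO (analytic_sub_isBigO hφ.fderiv t1 t2)) (H.isPA'.bdd hg)
  have a2 := Ord.clm_comp' ((hφ.fderiv.continuousAt.tendsto.comp t2).isBigO_one ℝ)
    (hk'.mono hg (Nat.le_succ N))
  refine (a1.add a2).congr' ?_
  filter_upwards [hk.1.eventually_analyticAt, t2.eventually hφ.eventually_analyticAt] with w h1 h2
  rw [fderiv_fun_comp w h2.differentiableAt h1.differentiableAt]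
  ext v
  simp

/-- **chain rule** -/
theorem Der.comp [CompleteSpace E] [CompleteSpace F] (hg' : Gauge om') {h : E → F}
    {h' : E → E →L[ℝ] F} {π : E' → E} {π' : E' → E' →L[ℝ] E} (H : Der om h h') (P : Der om' π π')
    (h0 : π 0 = 0) (ho : (fun w => om (π w)) =O[𝓝 0] om') :
    Der om' (fun w => h (π w)) fun w => (h' (π w)).comp (π' w) := fun N => by
  obtain ⟨k, hk, hk'⟩ := H N
  obtain ⟨l, hl, hl'⟩ := (P.analytic_comp hg' (φ := k) (h0 ▸ hk.1)) N
  have t := P.isPA.tendsto hg' h0
  refine ⟨l, ⟨hl.1, (hk.2.comp t ho).tri hl.2⟩, Ord.tri ?_ hl'⟩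
  refine (Ord.clm_comp (hk'.comp t ho) (P.isPA'.bdd hg')).congr fun w => ?_
  ext v
  simp

/-- Leibniz rule -/
theorem Der.mul (hg : Gauge om) {a b : E → ℝ} {a' b' : E → E →L[ℝ] ℝ} (A : Der om a a')
    (B : Der om b b') : Der om (fun w => a w * b w) fun w => a w • b' w + b w • a' w := by
  refine ((A.prodMk B).analytic_comp hg (φ := fun p : ℝ × ℝ => p.1 * p.2)
    (analyticAt_fst.mul analyticAt_snd)).congr' EventuallyEq.rfl (Eventually.of_forall fun w => ?_)
  have : HasFDerivAt (fun p : ℝ × ℝ => p.1 * p.2)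
      (a w • ContinuousLinearMap.snd ℝ ℝ ℝ + b w • ContinuousLinearMap.fst ℝ ℝ ℝ) (a w, b w) :=
    (hasFDerivAt_fst (𝕜 := ℝ) (p := (a w, b w))).mul (hasFDerivAt_snd (𝕜 := ℝ) (p := (a w, b w)))
  beta_reduce
  rw [this.fderiv]
  ext v
  simp

end Crest.Agent.N250.PA
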