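import Crest.Agent.N250.L.PA1
import Crest.Agent.N250.L.Mono

/-!
# Row 250, block (L): pro-analytic germs on `V n` with a coordinate as gauge (helper53)

Division by a coordinate, stripping of the gauge variable, domain property, implicit root, expansion in the first
variable, Tschirnhaus shift.
-/

set_option autoImplicit false
set_option linter.unusedVariables false

open Set Filter Topology Asymptotics Metric
open scoped Nat

noncomputable section

namespace Crest.Agent.N250.PA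

open Crest.Agent.N250.Mo

variable {n m : ℕ}

/-- the coordinate gauge -/
abbrev gc (s : Fin n) : V n → ℝ := fun w => w s

theorem gg (s : Fin n) : Gauge (gc s) := gauge_coord s

/-- an inequality off a coordinate hyperplane extends to the hyperplane -/
theorem le_of_dense {q b : V n → ℝ} {z : V n} (i : Fin n) (hq : ContinuousAt q z)
    (hb : ContinuousAt b z) (h : ∀ᶠ y in 𝓝 z, y i ≠ 0 → q y ≤ b y) : q z ≤ b z := by
  by_cases hz : z i = 0
  swap
  · exact h.self_of_nhds hz
  have t : Tendsto (fun t : ℝ => z + t • (Pi.single i 1 : V n)) (𝓝[≠] 0) (𝓝 z) := by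
    have : Continuous fun t : ℝ => z + t • (Pi.single i 1 : V n) := by fun_prop
    exact (this.tendsto' 0 z (by simp)).mono_left nhdsWithin_le_nhds
  refine le_of_tendsto_of_tendsto (hq.tendsto.comp t) (hb.tendsto.comp t) ?_
  filter_upwards [t.eventually h, self_mem_nhdsWithin] with x h1 h2
  exact h1 (by simpa [hz] using h2)

theorem abs_kill_le (i j : Fin n) (z : V n) : |kill i z j| ≤ |z j| := by
  rw [kill_apply]
  by_cases h : j = i
  · subst h; simp
  · simp [h]

theorem kill_isBigO (s i : Fin n) : (fun w => gc s (kill i w)) =O[𝓝 0] gc s :=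
  IsBigO.of_bound 1 (.of_forall fun w => by simpa using abs_kill_le i s w)

theorem IsPA.kill {s : Fin n} {g : V n → ℝ} (H : IsPA (gc s) g) (i : Fin n) :
    IsPA (gc s) fun w => g (kill i w) :=
  H.comp (gg s) (IsPA.of_analytic ((Mo.kill i).analyticAt 0)) (map_zero _) (kill_isBigO s i)

theorem Null.kill {s : Fin n} {g : V n → ℝ} (H : Null (gc s) g) (i : Fin n) :
    Null (gc s) fun w => g (kill i w) := H.comp (kill_tendsto i) (kill_isBigO s i)

/-- the Hadamard quotient of an analytic `O(s^(2N))` germ is `O(s^N)` -/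
theorem Ord.div {s i : Fin n} {N : ℕ} {k q : V n → ℝ} (hk : AnalyticAt ℝ k 0)
    (hq : AnalyticAt ℝ q 0) (e : ∀ᶠ z in 𝓝 0, k z - k (kill i z) = z i * q z)
    (H : Ord (gc s) (2 * N) k) : Ord (gc s) N q := by
  obtain ⟨C, hC, hb⟩ := IsBigO.exists_pos (Ord.fderiv (gg s) hk H)
  obtain ⟨r, hr, hB⟩ := Metric.eventually_nhds_iff_ball.1
    (hb.bound.and (e.and (hk.eventually_analyticAt.and hq.eventually_analyticAt)))
  have key : ∀ z ∈ ball (0 : V n) r, z i ≠ 0 → |q z| ≤ C * |z s| ^ N := by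
    intro z hz hi
    have cv : Convex ℝ (ball (0 : V n) r ∩ {y | |y s| ≤ |z s|}) := by
      refine (convex_ball _ _).inter ?_
      have : {y : V n | |y s| ≤ |z s|} =
          (LinearMap.proj s : V n →ₗ[ℝ] ℝ) ⁻¹' Icc (-|z s|) |z s| := by
        ext y; simp [abs_le]
      rw [this]
      exact (convex_Icc _ _).linear_preimage _
    have hk1 : kill i z ∈ ball (0 : V n) r := by
      rw [mem_ball_zero_iff] at hz ⊢
      refine lt_of_le_of_lt ((pi_norm_le_iff_of_nonneg (norm_nonneg _)).2 fun j => ?_) hz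
      exact (abs_kill_le i j z).trans (norm_le_pi_norm z j)
    have mv := cv.norm_image_sub_le_of_norm_fderiv_le (𝕜 := ℝ) (f := k) (C := C * |z s| ^ N)
      (fun y hy => (hB y hy.1).2.2.1.differentiableAt)
      (fun y hy => (hB y hy.1).1.trans (by
        rw [Real.norm_eq_abs, abs_pow]
        have : |y s| ≤ |z s| := hy.2
        exact mul_le_mul_of_nonneg_left (pow_le_pow_left₀ (abs_nonneg _) this N) hC.le))
      (x := kill i z) (y := z) ⟨hk1, abs_kill_le i s z⟩ ⟨hz, (le_rfl : |z s| ≤ |z s|)⟩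
    have e1 : z - kill i z = z i • (Pi.single i 1 : V n) := by simp [Mo.kill]
    rw [(hB z hz).2.1, e1, norm_smul, Pi.norm_single, norm_one, mul_one, norm_mul,
      mul_comm (C * |z s| ^ N)] at mv
    exact le_of_mul_le_mul_left mv (norm_pos_iff.2 hi)
  refine IsBigO.of_bound C ?_
  filter_upwards [ball_mem_nhds (0 : V n) hr] with z hz
  rw [Real.norm_eq_abs, Real.norm_eq_abs, abs_pow]
  refine le_of_dense (q := fun y => |q y|) (b := fun y => C * |y s| ^ N) i
    (hB z hz).2.2.2.continuousAt.abs (Continuous.continuousAt (by fun_prop)) ?_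
  filter_upwards [isOpen_ball.mem_nhds hz] with y hy
  exact key y hy

/-- **division by a coordinate** -/
theorem IsPA.div_coord {s : Fin n} {g : V n → ℝ} (H : IsPA (gc s) g) (i : Fin n) :
    ∃ h : V n → ℝ, IsPA (gc s) h ∧ Null (gc s) fun z => g z - (g (Mo.kill i z) + z i * h z) := by
  obtain ⟨h, hh, hR⟩ := realise (gg s) (fun N q => ∃ k, App (gc s) (2 * N) g k ∧
      ∀ᶠ z in 𝓝 0, k z - k (Mo.kill i z) = z i * q z)
    (fun N => by
      obtain ⟨k, hk⟩ := H (2 * N)
      obtain ⟨q, hq, e⟩ := Mo.div_coord hk.1 i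
      exact ⟨q, hq, k, hk, e⟩)
    (by
      rintro N q q' hq hq' ⟨k, hk, e⟩ ⟨k', hk', e'⟩
      refine Ord.div (i := i) (k := fun z => k' z - k z) (hk'.1.sub hk.1) (hq'.sub hq) ?_
        ((hk'.mono (gg s) (by omega)).2.symm.tri hk.2)
      filter_upwards [e, e'] with z h1 h2
      linear_combination h2 - h1)
  refine ⟨h, hh, fun N => ?_⟩
  obtain ⟨q, ⟨k, hk, e⟩, hq⟩ := hR N
  have h1 := hk.2.mono (gg s) (show N ≤ 2 * N by omega)
  have h2 := h1.comp (kill_tendsto i) (kill_isBigO s i)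
  have h3 := hq.2.smul_bdd ((IsPA.coord (om := gc s) i).bdd (gg s))
  refine ((h1.sub h2).sub h3).congr' ?_
  filter_upwards [e] with z hz
  simp only [smul_eq_mul]
  linear_combination -hz

/-- the restriction to the zero set of the gauge is analytic -/
theorem IsPA.an_kill {s : Fin n} {g : V n → ℝ} (H : IsPA (gc s) g) :
    AnalyticAt ℝ (fun w => g (Mo.kill s w)) 0 :=
  H.analyticAt_comp ((Mo.kill s).analyticAt 0) (map_zero _)
    (.of_forall fun w => by simp [gc, kill_apply])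

theorem Null.kill_zero {s : Fin n} {g : V n → ℝ} (H : Null (gc s) g) :
    ∀ᶠ w in 𝓝 0, g (Mo.kill s w) = 0 := by
  filter_upwards [(kill_tendsto s).eventually H.eq_zero] with w hw
  exact hw (by simp [gc, kill_apply])

/-- **stripping the gauge variable** -/
theorem IsPA.strip {s : Fin n} {g : V n → ℝ} (H : IsPA (gc s) g) (hn : ¬ Null (gc s) g) :
    ∃ (k : ℕ) (g' : V n → ℝ), IsPA (gc s) g' ∧ (Null (gc s) fun z => g z - z s ^ k * g' z) ∧
      NZ fun z => g' (Mo.kill s z) := by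
  by_contra hc
  push Not at hc
  have key : ∀ k : ℕ, ∃ g' : V n → ℝ, IsPA (gc s) g' ∧
      Null (gc s) fun z => g z - z s ^ k * g' z := by
    intro k
    induction k with
    | zero => exact ⟨g, H, (Null.refl g).congr fun w => by simp⟩
    | succ k ih =>
      obtain ⟨g', h1, h2⟩ := ih
      obtain ⟨h, h3, h4⟩ := h1.div_coord s
      refine ⟨h, h3, ?_⟩
      have h5 := not_not.1 (hc k g' h1 h2)
      refine (h2.add (h4.mul_left (gg s) ((IsPA.coord s).pow (gg s) k))).congr' ?_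
      filter_upwards [h5] with z hz
      rw [hz]; ring
  refine hn fun N => ?_
  obtain ⟨g', h1, h2⟩ := key N
  refine ((h2 N).add ((Ord.pow_self (om := gc s) N).smul_bdd' (h1.bdd (gg s)))).congr fun w => ?_
  simp [gc]

theorem not_null_of_nz {s : Fin n} {g : V n → ℝ} (H : IsPA (gc s) g)
    (hz : NZ fun z => g (Mo.kill s z)) (k : ℕ) : ¬ Null (gc s) fun z => z s ^ k * g z := by
  intro hn
  obtain ⟨l, hl⟩ := H 1
  obtain ⟨C, hC, hb⟩ := IsBigO.exists_pos (hn (k + 1))
  obtain ⟨C', hC', hb'⟩ := IsBigO.exists_pos hl.2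
  have e1 : ∀ᶠ z in 𝓝 (0 : V n), z s ≠ 0 → |l z| ≤ (C + C') * |z s| := by
    filter_upwards [hb.bound, hb'.bound] with z h1 h2 h0
    simp only [gc, Real.norm_eq_abs, abs_mul, abs_pow, pow_one] at h1 h2
    have h3 : |g z| ≤ C * |z s| := by
      rw [pow_succ, mul_left_comm] at h1
      exact le_of_mul_le_mul_left h1 (by positivity)
    have h4 := abs_sub_abs_le_abs_sub (l z) (g z)
    rw [abs_sub_comm] at h4
    linarith
  refine hz ?_
  filter_upwards [(kill_tendsto s).eventually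
    (e1.eventually_nhds.and (hl.1.eventually_analyticAt.and hl.2.eq_zero))] with z hz
  have h0 : Mo.kill s z s = 0 := by simp [kill_apply]
  have h1 := le_of_dense (q := fun y => |l y|) (b := fun y => (C + C') * |y s|) s
    hz.2.1.continuousAt.abs (Continuous.continuousAt (by fun_prop)) hz.1
  simp only [h0, abs_zero, mul_zero, abs_nonpos_iff] at h1
  rw [← h1]
  exact sub_eq_zero.1 (hz.2.2 h0)

/-- **domain property** -/
theorem not_null_mul {s : Fin n} {f g : V n → ℝ} (hf : IsPA (gc s) f) (hg : IsPA (gc s) g)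
    (h1 : ¬ Null (gc s) f) (h2 : ¬ Null (gc s) g) : ¬ Null (gc s) fun z => f z * g z := by
  obtain ⟨k, f', a1, a2, a3⟩ := hf.strip h1
  obtain ⟨l, g', b1, b2, b3⟩ := hg.strip h2
  intro hn
  refine not_null_of_nz (a1.mul (gg s) b1) (NZ.mul a1.an_kill b1.an_kill a3 b3) (k + l) ?_
  refine (hn.of_sub (Null.mul_congr (gg s) hf (((IsPA.coord s).pow (gg s) l).mul (gg s) b1)
    a2 b2)).congr fun w => by ring

theorem null_or_null {s : Fin n} {f g : V n → ℝ} (hf : IsPA (gc s) f) (hg : IsPA (gc s) g)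
    (h : Null (gc s) fun z => f z * g z) : Null (gc s) f ∨ Null (gc s) g := by
  by_contra hc
  push Not at hc
  exact not_null_mul hf hg hc.1 hc.2 h

theorem not_null_of_ne {s : Fin n} {f : V n → ℝ} (h : f 0 ≠ 0) : ¬ Null (gc s) f :=
  fun e => h ((e 1).apply_zero (gg s))

theorem not_null_coord (s i : Fin n) : ¬ Null (gc s) fun y : V n => y i := by
  by_cases h : i = s
  · subst h
    have := not_null_of_nz (s := i) (IsPA.const (1 : ℝ)) (nz_of_ne one_ne_zero) 1
    simpa using this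
  · have := not_null_of_nz (s := s) (IsPA.coord i) (by simpa [kill_apply, h] using nz_coord i) 0
    simpa using this

theorem not_null_prod {s : Fin n} {ι : Type*} (t : Finset ι) {f : ι → V n → ℝ}
    (hf : ∀ i ∈ t, IsPA (gc s) (f i)) (h : ∀ i ∈ t, ¬ Null (gc s) (f i)) :
    ¬ Null (gc s) fun z => ∏ i ∈ t, f i z := by
  classical
  induction t using Finset.induction_on with
  | empty => exact not_null_of_ne (by simp)
  | insert i t hi ih =>
    simp only [Finset.prod_insert hi]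
    exact not_null_mul (hf i (Finset.mem_insert_self _ _))
      (IsPA.prod (gg s) fun j hj => hf j (Finset.mem_insert_of_mem hj))
      (h i (Finset.mem_insert_self _ _))
      (ih (fun j hj => hf j (Finset.mem_insert_of_mem hj)) fun j hj => h j (Finset.mem_insert_of_mem hj))

theorem not_null_pow {s : Fin n} {f : V n → ℝ} (hf : IsPA (gc s) f) (h : ¬ Null (gc s) f) (k : ℕ) :
    ¬ Null (gc s) fun z => f z ^ k := by
  simpa using not_null_prod (Finset.range k) (f := fun _ => f) (fun _ _ => hf) fun _ _ => h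

theorem pa_mono {om : V n → ℝ} (α : Fin n → ℕ) : IsPA om (mono α) := IsPA.of_analytic (an_mono α 0)

theorem not_null_mono (s : Fin n) (α : Fin n → ℕ) : ¬ Null (gc s) (mono α) :=
  not_null_prod Finset.univ (f := fun i y => y i ^ α i)
    (fun i _ => (IsPA.coord i).pow (gg s) _) fun i _ =>
      not_null_pow (IsPA.coord i) (not_null_coord s i) _

theorem cancel {s : Fin n} {f g : V n → ℝ} (hf : IsPA (gc s) f) (hg : IsPA (gc s) g)
    (α : Fin n → ℕ) (h : Null (gc s) fun y => mono α y * f y - mono α y * g y) :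
    Null (gc s) fun y => f y - g y :=
  (null_or_null (pa_mono α) (hf.sub hg) (h.congr fun w => by ring)).resolve_left
    (not_null_mono s α)

/-! ### The first variable -/

theorem pa_cs {E : Type*} [NormedAddCommGroup E] [NormedSpace ℝ E] {om : E → ℝ} {f : E → ℝ}
    {g : E → V n} (hf : IsPA om f) (hg : IsPA om g) : IsPA om fun y => cs (f y) (g y) :=
  IsPA.pi fun i => Fin.cases hf (fun i => hg.apply i) i

theorem IsPA.tl {s : Fin n} {F : Type*} [NormedAddCommGroup F] [NormedSpace ℝ F] {g : V n → F}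
    (hg : IsPA (gc s) g) : IsPA (gc s.succ) fun w => g (tl w) :=
  hg.comp (gg _) (IsPA.of_analytic (an_tl 0)) rfl (isBigO_refl _ _)

theorem Null.tl {s : Fin n} {F : Type*} [NormedAddCommGroup F] {g : V n → F}
    (hg : Null (gc s) g) : Null (gc s.succ) fun w => g (tl w) :=
  hg.comp tendsto_tl (isBigO_refl _ _)

theorem IsPA.cs_comp {s : Fin n} {g : V (n + 1) → ℝ} (hg : IsPA (gc s.succ) g) {ψ : V n → ℝ}
    (hψ : IsPA (gc s) ψ) (h0 : ψ 0 = 0) : IsPA (gc s) fun x => g (cs (ψ x) x) :=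
  hg.comp (gg _) (pa_cs hψ IsPA.id) (by simp [h0]) (isBigO_refl _ _)

/-- the restriction to the first axis is analytic -/
theorem IsPA.an_axis {s : Fin n} {g : V (n + 1) → ℝ} (hg : IsPA (gc s.succ) g) :
    AnalyticAt ℝ (fun t : ℝ => g (cs t 0)) 0 :=
  hg.analyticAt_comp (an_cs analyticAt_id analyticAt_const) cs_zero_zero (.of_forall fun _ => rfl)

theorem Ord.axis {s : Fin n} {N : ℕ} {g : V (n + 1) → ℝ} (hg : Ord (gc s.succ) (N + 1) g) :
    ∀ᶠ t in 𝓝 (0 : ℝ), g (cs t 0) = 0 := by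
  have t : Tendsto (fun t : ℝ => cs t (0 : V n)) (𝓝 0) (𝓝 0) := tendsto_cs tendsto_id tendsto_const_nhds
  filter_upwards [t.eventually hg.eq_zero] with x hx
  exact hx rfl

theorem reg_congr {s : Fin n} {g g' : V (n + 1) → ℝ}
    (h : Ord (gc s.succ) 1 fun w => g w - g' w) (k : ℕ) : reg g k = reg g' k :=
  Filter.EventuallyEq.iteratedDeriv_eq k ((Ord.axis h).mono fun _ ht => sub_eq_zero.1 ht)

/-- **expansion in the first variable** -/
theorem IsPA.expand {s : Fin n} {g : V (n + 1) → ℝ} (hg : IsPA (gc s.succ) g) (d : ℕ) :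
    ∃ (a : ℕ → V n → ℝ) (u : V (n + 1) → ℝ), (∀ j, IsPA (gc s) (a j)) ∧ IsPA (gc s.succ) u ∧
      Null (gc s.succ) fun w =>
        g w - (∑ j ∈ Finset.range d, a j (Mo.tl w) * w 0 ^ j + w 0 ^ d * u w) := by
  induction d with
  | zero => exact ⟨fun _ _ => 0, g, fun _ => IsPA.const _, hg, (Null.refl g).congr fun w => by simp⟩
  | succ d ih =>
    obtain ⟨a, u, ha, hu, e⟩ := ih
    obtain ⟨h, hh, e'⟩ := hu.div_coord 0
    refine ⟨fun j => if j = d then fun x => u (cs 0 x) else a j, h, fun j => ?_, hh, ?_⟩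
    · beta_reduce
      split_ifs
      exacts [hu.cs_comp (IsPA.const 0) rfl, ha j]
    · refine (e.add (e'.mul_left (gg _) ((IsPA.coord 0).pow (gg _) d))).congr fun w => ?_
      have h3 : Mo.kill 0 w = cs 0 (Mo.tl w) := by
        rw [kill_apply]
        conv_lhs => rw [← cs_tl w]
        exact Fin.update_cons_zero _ _ _
      beta_reduce
      rw [Finset.sum_range_succ, if_pos rfl, Finset.sum_congr (s₁ := Finset.range d) rfl
        (f := fun j => (if j = d then fun x => u (cs 0 x) else a j) (Mo.tl w) * w 0 ^ j)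
        (g := fun j => a j (Mo.tl w) * w 0 ^ j)
        fun j hj => by rw [if_neg (Finset.mem_range.1 hj).ne], h3]
      ring

/-- **implicit root** -/
theorem IsPA.ift {s : Fin n} {G : V (n + 1) → ℝ} (hG : IsPA (gc s.succ) G) (h0 : G 0 = 0)
    (h1 : reg G 1 ≠ 0) :
    ∃ ψ : V n → ℝ, IsPA (gc s) ψ ∧ ψ 0 = 0 ∧ Null (gc s) fun x => G (cs (ψ x) x) := by
  have hD : ∀ {N : ℕ} {k : V (n + 1) → ℝ}, App (gc s.succ) (N + 1) G k → k 0 = 0 ∧ D0 k 0 ≠ 0 := by
    intro N k hk
    refine ⟨(hk.apply_zero (gg _)).symm.trans h0, ?_⟩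
    rw [reg_congr (hk.2.mono (gg _) (by omega)), reg,
      iter_D0 (by rw [cs_zero_zero]; exact hk.1)] at h1
    simpa using h1
  have tc : ∀ {ψ : V n → ℝ}, ContinuousAt ψ 0 → ψ 0 = 0 →
      Tendsto (fun x => cs (ψ x) x) (𝓝 0) (𝓝 0) := fun h h' =>
    tendsto_cs (by simpa only [ContinuousAt, h'] using h) tendsto_id
  obtain ⟨ψ, hψ, hR⟩ := realise (gg s) (fun N ψ => ψ 0 = 0 ∧ ∃ k, App (gc s.succ) (N + 1) G k ∧
      ∀ᶠ x in 𝓝 0, k (cs (ψ x) x) = 0)
    (fun N => by
      obtain ⟨k, hk⟩ := hG (N + 1)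
      obtain ⟨ψ, a1, a2, a3⟩ := Mo.ift hk.1 (hD hk).1 (hD hk).2
      exact ⟨ψ, a1, a2, k, hk, a3⟩)
    (by
      rintro N ψ ψ' a a' ⟨b, k, hk, e⟩ ⟨b', k', hk', e'⟩
      have t := tc a.continuousAt b
      have t' := tc a'.continuousAt b'
      have o1 : Ord (gc s) N fun x => k (cs (ψ' x) x) - k (cs (ψ x) x) := by
        have := (((hk.mono (gg _) (Nat.le_succ N)).2.symm.tri
          (hk'.mono (gg _) (show N ≤ N + 1 + 1 by omega)).2).comp (om' := gc s) t'
          (isBigO_refl _ _))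
        refine this.congr' ?_
        filter_upwards [e, e'] with x h1 h2
        rw [h1, h2]
      refine o1.of_isBigO ?_
      have o2 := (hk.1.hasStrictFDerivAt.isLittleO.comp_tendsto (t'.prodMk_nhds t))
      have hc := (hD hk).2
      have e1 : ∀ x, cs (ψ' x) x - cs (ψ x) x = (ψ' x - ψ x) • cs 1 (0 : V n) := fun x =>
        funext fun i => Fin.cases (by simp) (fun i => by simp) i
      have n1 : ‖cs 1 (0 : V n)‖ ≤ 1 := (pi_norm_le_iff_of_nonneg zero_le_one).2 fun i =>
        Fin.cases (by simp) (fun i => by simp) i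
      refine IsBigO.of_bound (2 / |D0 k 0|) ?_
      filter_upwards [o2.bound (c := |D0 k 0| / 2) (by positivity)] with x hx
      simp only [Function.comp, e1, map_smul, norm_smul, Real.norm_eq_abs, smul_eq_mul] at hx ⊢
      change |_ - (ψ' x - ψ x) * D0 k 0| ≤ _ at hx
      have h3 := abs_sub_abs_le_abs_sub ((ψ' x - ψ x) * D0 k 0) (k (cs (ψ' x) x) - k (cs (ψ x) x))
      rw [abs_sub_comm ((ψ' x - ψ x) * D0 k 0), abs_mul] at h3
      have h4 : 0 < |D0 k 0| := abs_pos.2 hc
      rw [div_mul_eq_mul_div, le_div_iff₀ h4]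
      have h5 : |D0 k 0| / 2 * (|ψ' x - ψ x| * ‖cs 1 (0 : V n)‖) ≤ |D0 k 0| / 2 * |ψ' x - ψ x| := by
        gcongr
        exact mul_le_of_le_one_right (abs_nonneg _) n1
      nlinarith)
  have p0 : ψ 0 = 0 := by
    obtain ⟨q, ⟨b, -⟩, hq⟩ := hR 1
    exact (hq.apply_zero (gg s)).trans b
  refine ⟨ψ, hψ, p0, fun N => ?_⟩
  obtain ⟨q, ⟨b, k, hk, e⟩, hq⟩ := hR N
  have t := tc (hψ.continuousAt (gg s)) p0
  have t' := tc hq.1.continuousAt b
  have o1 := (hk.mono (gg _) (Nat.le_succ N)).2.comp (om' := gc s) t (isBigO_refl _ _)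
  have o2 : Ord (gc s) N fun x => cs (ψ x) x - cs (q x) x :=
    isBigO_pi.2 fun i => Fin.cases (by simpa [Ord] using hq.2)
      (fun i => by simpa using isBigO_zero _ _) i
  refine (o1.add (o2.of_isBigO (analytic_sub_isBigO hk.1 t t'))).congr' ?_
  filter_upwards [e] with x hx
  rw [hx]; ring

/-- the coefficients of an expansion at the origin -/
theorem reg_of_expand {s : Fin n} {g u : V (n + 1) → ℝ} {a : ℕ → V n → ℝ} {d : ℕ}
    (hu : IsPA (gc s.succ) u) (e : Null (gc s.succ) fun w =>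
      g w - (∑ j ∈ Finset.range d, a j (Mo.tl w) * w 0 ^ j + w 0 ^ d * u w)) :
    (∀ j < d, reg g j = j ! * a j 0) ∧ reg g d = d ! * u 0 := by
  have e1 : ∀ᶠ t in 𝓝 (0 : ℝ), g (cs t 0) =
      ∑ j ∈ Finset.range d, a j 0 * t ^ j + t ^ d * u (cs t 0) :=
    (Ord.axis (e 1)).mono fun t ht => by simpa [sub_eq_zero] using ht
  exact ⟨fun j hj => coef hu.an_axis e1 hj, by simpa [reg] using coef_top hu.an_axis e1⟩

/-- **Tschirnhaus shift**: after `t ↦ t + ψ x` the coefficient of `t ^ e` is null -/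
theorem IsPA.tschirn {s : Fin n} {g : V (n + 1) → ℝ} (hg : IsPA (gc s.succ) g) {e : ℕ}
    (h0 : reg g e = 0) (h1 : reg g (e + 1) ≠ 0) :
    ∃ (ψ : V n → ℝ) (a : ℕ → V n → ℝ) (u : V (n + 1) → ℝ), IsPA (gc s) ψ ∧ ψ 0 = 0 ∧
      (∀ j, IsPA (gc s) (a j)) ∧ IsPA (gc s.succ) u ∧ Null (gc s) (a e) ∧
      (∀ j < e + 1, reg g j = j ! * a j 0) ∧ reg g (e + 1) = (e + 1)! * u 0 ∧
      Null (gc s.succ) fun w => g (cs (w 0 + ψ (Mo.tl w)) (Mo.tl w)) -
        (∑ j ∈ Finset.range (e + 1), a j (Mo.tl w) * w 0 ^ j + w 0 ^ (e + 1) * u w) := by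
  have g2 : IsPA (gc s.succ.succ) fun w : V (n + 2) => g (cs (w 0 + w 1) (Mo.tl (Mo.tl w))) :=
    hg.comp (gg _) (IsPA.of_analytic (an_cs ((an_coord 0 0).add (an_coord 1 0))
      (an_comp (an_tl 0) (an_tl 0) rfl))) (by simp) (isBigO_refl _ _)
  obtain ⟨A, U, hA, hU, e2⟩ := g2.expand (e + 1)
  -- the coefficient on the plane `x = 0`
  have ax : ∀ᶠ y in 𝓝 (0 : ℝ), iteratedDeriv e (fun t => g (cs t 0)) y = e ! * A e (cs y 0) := by
    obtain ⟨k, hk⟩ := hU 1
    have t0 : Tendsto (fun y : ℝ => cs 0 (cs y (0 : V n))) (𝓝 0) (𝓝 0) :=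
      tendsto_cs tendsto_const_nhds (tendsto_cs tendsto_id tendsto_const_nhds)
    filter_upwards [t0.eventually hk.1.eventually_analyticAt,
      t0.eventually ((e2 1).eq_zero.and hk.2.eq_zero).eventually_nhds] with y a1 a2
    have a3 := (hasDerivAt_cs 0 (cs y (0 : V n))).continuousAt.eventually a2
    have a4 := coef (F := fun t => g (cs (t + y) 0)) (a := fun j => A j (cs y 0)) (d := e + 1)
      (u := fun t => k (cs t (cs y 0)))
      (a1.comp_of_eq (an_cs analyticAt_id analyticAt_const) rfl) (by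
        filter_upwards [a3] with t ht
        have b1 := sub_eq_zero.1 (ht.1 rfl)
        have b2 := sub_eq_zero.1 (ht.2 rfl)
        rw [← b2]
        exact b1) e.lt_succ_self
    rw [iteratedDeriv_comp_add_const e (fun t => g (cs t 0)) y] at a4
    simpa using a4
  have ne : (e ! : ℝ) ≠ 0 := Nat.cast_ne_zero.2 e.factorial_ne_zero
  obtain ⟨ψ, hψ, p0, hn⟩ := (hA e).ift (by
      have := ax.self_of_nhds
      rw [cs_zero_zero] at this
      exact (mul_eq_zero.1 (this.symm.trans h0)).resolve_left ne) (fun h => h1 (by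
      rw [reg, iteratedDeriv_succ, Filter.EventuallyEq.deriv_eq ax, deriv_const_mul_field]
      rw [reg, iteratedDeriv_one] at h
      rw [h, mul_zero]))
  have P : IsPA (gc s.succ) fun w : V (n + 1) => cs (w 0) (cs (ψ (Mo.tl w)) (Mo.tl w)) :=
    pa_cs (IsPA.coord 0) (pa_cs hψ.tl (IsPA.of_analytic (an_tl 0)))
  have P0 : cs ((0 : V (n + 1)) 0) (cs (ψ (Mo.tl 0)) (Mo.tl (0 : V (n + 1)))) = 0 := by simp [p0]
  have hu := hU.comp (gg _) P P0 (isBigO_refl _ _)
  have e3 := e2.comp (om' := gc s.succ) (P.tendsto (gg _) P0) (isBigO_refl _ _)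
  have e4 := reg_of_expand (a := fun j x => A j (cs (ψ x) x))
    (g := fun w => g (cs (w 0 + ψ (Mo.tl w)) (Mo.tl w))) hu e3
  have e5 : ∀ j, reg (fun w => g (cs (w 0 + ψ (Mo.tl w)) (Mo.tl w))) j = reg g j := fun j => by
    simp [reg, p0]
  simp only [e5] at e4
  exact ⟨ψ, fun j x => A j (cs (ψ x) x), _, hψ, p0, fun j => (hA j).cs_comp hψ p0, hu, hn,
    e4.1, e4.2, e3⟩

end Crest.Agent.N250.PA
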