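import Crest.Agent.N250.L.PA2

/-!
# Row 250, block (L): monomial times unit modulo `Null`, lifts of an ultrafilter point (helper53, after helper31)
-/

set_option autoImplicit false
set_option linter.unusedVariables false

open Set Filter Topology Asymptotics Metric
open scoped Nat

noncomputable section

namespace Crest.Agent.N250.PA

open Crest.Agent.N250.Mo (V mono kill cs tl NZ kill_apply kill_tendsto mono_zero mono_add mono_smul
  mono_single mono_eq_zero mono_at_zero mono_sub sum_sub_lt an_mono an_coord an_tl an_cs cs_zero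
  cs_succ tl_cs tl_apply tl_zero cs_tl cs_zero_zero tendsto_tl tendsto_cs)

variable {n m : ℕ}

/-- monomial times unit, modulo `Null` -/
def MU (s : Fin n) (g : V n → ℝ) : Prop :=
  ∃ (α : Fin n → ℕ) (u : V n → ℝ), IsPA (gc s) u ∧ u 0 ≠ 0 ∧
    Null (gc s) fun y => g y - mono α y * u y

variable {s : Fin n}

theorem MU.pa {g : V n → ℝ} (h : MU s g) : IsPA (gc s) g := by
  obtain ⟨α, u, hu, -, e⟩ := h
  exact ((pa_mono α).mul (gg s) hu).congr_null e.symm

theorem MU.nn {g : V n → ℝ} (h : MU s g) : ¬ Null (gc s) g := fun h0 => by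
  obtain ⟨α, u, hu, h1, e⟩ := h
  exact not_null_mul (pa_mono α) hu (not_null_mono s α) (not_null_of_ne h1) (h0.of_sub e)

theorem MU.congr {f g : V n → ℝ} (h : MU s f) (e : Null (gc s) fun y => g y - f y) : MU s g := by
  obtain ⟨α, u, hu, h1, e'⟩ := h
  exact ⟨α, u, hu, h1, e.tri e'⟩

theorem MU.congr' {f g : V n → ℝ} (h : MU s f) (e : ∀ y, g y = f y) : MU s g :=
  h.congr (Null.of_eventuallyEq (.of_forall e))

theorem MU.of_mo {g : V n → ℝ} (h : Mo.MU g) : MU s g := by
  obtain ⟨α, u, hu, h1, e⟩ := h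
  exact ⟨α, u, IsPA.of_analytic hu, h1, Null.of_eventuallyEq e⟩

theorem mu_unit {u : V n → ℝ} (hu : IsPA (gc s) u) (h : u 0 ≠ 0) : MU s u :=
  ⟨0, u, hu, h, (Null.refl u).congr fun y => by rw [mono_zero, one_mul]⟩

theorem mu_mono (α : Fin n → ℕ) : MU s (mono α) := MU.of_mo (Mo.mu_mono α)

theorem mu_coord (i : Fin n) : MU s fun y : V n => y i := MU.of_mo (Mo.mu_coord i)

theorem MU.mul {f g : V n → ℝ} (hf : MU s f) (hg : MU s g) : MU s fun y => f y * g y := by
  have pf := hf.pa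
  obtain ⟨α, u, hu, h1, e⟩ := hf
  obtain ⟨β, v, hv, h2, e'⟩ := hg
  refine ⟨α + β, fun y => u y * v y, hu.mul (gg s) hv, mul_ne_zero h1 h2, ?_⟩
  refine (Null.mul_congr (gg s) pf ((pa_mono β).mul (gg s) hv) e e').congr fun y => ?_
  rw [mono_add]; ring

theorem mu_prod {ι : Type*} (t : Finset ι) {f : ι → V n → ℝ} (h : ∀ i ∈ t, MU s (f i)) :
    MU s fun z => ∏ i ∈ t, f i z := by
  classical
  induction t using Finset.induction_on with
  | empty => exact mu_unit (IsPA.const _) (by simp)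
  | insert a t ha ih =>
    simp only [Finset.prod_insert ha]
    exact (h a (Finset.mem_insert_self _ _)).mul (ih fun i hi => h i (Finset.mem_insert_of_mem hi))

theorem MU.pow {f : V n → ℝ} (hf : MU s f) (k : ℕ) : MU s fun y => f y ^ k := by
  simpa using mu_prod (Finset.range k) fun _ _ => hf

theorem MU.comp {g : V n → ℝ} (hg : MU s g) {s' : Fin m} {ρ : V m → V n} (h0 : ρ 0 = 0)
    (ho : (fun w => gc s (ρ w)) =O[𝓝 0] gc s') (hρ : ∀ i, MU s' fun y => ρ y i) :
    MU s' fun y => g (ρ y) := by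
  obtain ⟨α, u, hu, h1, e⟩ := hg
  have ha : IsPA (gc s') ρ := IsPA.pi fun i => (hρ i).pa
  exact ((mu_prod Finset.univ fun i _ => (hρ i).pow (α i)).mul
    (mu_unit (hu.comp (gg _) ha h0 ho) (by rwa [h0]))).congr (e.comp (ha.tendsto (gg _) h0) ho)

theorem MU.tl {g : V n → ℝ} (hg : MU s g) : MU s.succ fun w => g (tl w) :=
  hg.comp rfl (isBigO_refl _ _) fun i => mu_coord _

/-- factors of a monomial times unit -/
theorem MU.of_mul {f g : V n → ℝ} (hf : IsPA (gc s) f) (hg : IsPA (gc s) g)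
    (h : MU s fun y => f y * g y) : MU s f := by
  obtain ⟨α, u, hu, h1, e⟩ := h
  replace e : Null (gc s) fun y => f y * g y - mono α y * u y := e
  induction hk : ∑ j, α j using Nat.strong_induction_on generalizing α f g with
  | _ k ih =>
  by_cases h0 : α = 0
  · refine mu_unit hf (left_ne_zero_of_mul (b := g 0) ?_)
    rw [sub_eq_zero.1 ((e 1).apply_zero (gg s)), h0, mono_zero, one_mul]; exact h1
  obtain ⟨i, hi⟩ := Function.ne_iff.1 h0
  have hlt := hk ▸ sum_sub_lt hi
  have e0 : Null (gc s) fun y => f (kill i y) * g (kill i y) :=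
    (e.kill i).congr fun y => by
      rw [mono_eq_zero hi (by simp [kill_apply]), zero_mul, sub_zero]
  have hu' := (pa_mono (α - Pi.single i 1)).mul (gg s) hu
  rcases null_or_null (hf.kill i) (hg.kill i) e0 with e1 | e1
  · obtain ⟨h, ha, e2⟩ := hf.div_coord i
    have e3 : Null (gc s) fun y => f y - y i * h y := (e2.add e1).congr fun y => by ring
    refine ((mu_coord i).mul (ih _ hlt ha hg _ (cancel (ha.mul (gg s) hg) hu' (Pi.single i 1) ?_)
      rfl)).congr e3
    refine (e.sub (e3.mul_right (gg s) hg)).congr fun y => ?_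
    rw [mono_single, mono_sub hi]; ring
  · obtain ⟨h, ha, e2⟩ := hg.div_coord i
    have e3 : Null (gc s) fun y => g y - y i * h y := (e2.add e1).congr fun y => by ring
    refine ih _ hlt hf ha _ (cancel (hf.mul (gg s) ha) hu' (Pi.single i 1) ?_) rfl
    refine (e.sub (e3.mul_left (gg s) hf)).congr fun y => ?_
    rw [mono_single, mono_sub hi]; ring

theorem MU.of_prod {ι : Type*} {t : Finset ι} {f : ι → V n → ℝ}
    (hf : ∀ i ∈ t, IsPA (gc s) (f i)) (h : MU s fun y => ∏ i ∈ t, f i y) {i : ι} (hi : i ∈ t) :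
    MU s (f i) := by
  classical
  refine MU.of_mul (g := fun y => ∏ j ∈ t.erase i, f j y) (hf i hi)
    (IsPA.prod (gg s) fun j hj => hf j (Finset.mem_of_mem_erase hj)) ?_
  exact h.congr' fun y => Finset.mul_prod_erase t (fun j => f j y) hi

theorem mono_kill {α : Fin n → ℕ} {i : Fin n} (h : α i = 0) (y : V n) :
    mono α (kill i y) = mono α y := by
  refine Finset.prod_congr rfl fun j _ => ?_
  by_cases hj : j = i
  · subst hj; simp [h]
  · simp [kill_apply, hj]

/-- a monomial times a unit is divisible only by smaller monomials -/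
theorem le_of_eq {α β : Fin n → ℕ} {u v : V n → ℝ} (hu : IsPA (gc s) u) (hv : IsPA (gc s) v)
    (h0 : u 0 ≠ 0) (h : Null (gc s) fun y => mono α y * u y - mono β y * v y) : β ≤ α := fun i => by
  by_contra hi
  have hi' : α i < β i := not_le.1 hi
  set γ : Fin n → ℕ := Pi.single i (α i)
  have e1 : α = γ + (α - γ) := (add_tsub_cancel_of_le fun j => by
    by_cases hj : j = i
    · subst hj; simp [γ]
    · simp [γ, hj]).symm
  have e2 : β = γ + (β - γ) := (add_tsub_cancel_of_le fun j => by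
    by_cases hj : j = i
    · subst hj; simp [γ, hi'.le]
    · simp [γ, hj]).symm
  have e3 := cancel ((pa_mono (α - γ)).mul (gg s) hu) ((pa_mono (β - γ)).mul (gg s) hv) γ
    (h.congr fun y => by
      rw [← mul_assoc, ← mul_assoc, ← mono_add, ← mono_add, ← e1, ← e2])
  refine not_null_mul (pa_mono (α - γ)) (hu.kill i) (not_null_mono s _)
    (not_null_of_ne (by rwa [map_zero])) ((e3.kill i).congr fun y => ?_)
  rw [mono_eq_zero (α := β - γ) (i := i) (by simp [γ]; omega) (by simp [kill_apply]), zero_mul,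
    sub_zero, mono_kill (by simp [γ])]

/-- if the difference of two monomials times units is again one, the exponents are comparable -/
theorem cmp {α β : Fin n → ℕ} {u v : V n → ℝ} (hu : IsPA (gc s) u) (hv : IsPA (gc s) v)
    (u0 : u 0 ≠ 0) (v0 : v 0 ≠ 0) (h : MU s fun y => mono α y * u y - mono β y * v y) :
    α ≤ β ∨ β ≤ α := by
  obtain ⟨γ, w, hw, w0, e⟩ := h
  set δ := α ⊓ β
  have e1 : α = δ + (α - δ) := (add_tsub_cancel_of_le inf_le_left).symm
  have e2 : β = δ + (β - δ) := (add_tsub_cancel_of_le inf_le_right).symm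
  have hd := ((pa_mono (α - δ)).mul (gg s) hu).sub ((pa_mono (β - δ)).mul (gg s) hv)
  have h1 : δ ≤ γ := le_of_eq hw hd w0 (e.symm.congr fun y => by
    rw [mul_sub, ← mul_assoc, ← mul_assoc, ← mono_add, ← mono_add, ← e1, ← e2])
  have e3 : γ = δ + (γ - δ) := (add_tsub_cancel_of_le h1).symm
  have e4 := cancel hd ((pa_mono (γ - δ)).mul (gg s) hw) δ (e.congr fun y => by
    rw [mul_sub, ← mul_assoc, ← mul_assoc, ← mul_assoc, ← mono_add, ← mono_add, ← mono_add,
      ← e1, ← e2, ← e3])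
  by_contra hc
  obtain ⟨⟨i, hi⟩, ⟨j, hj⟩⟩ : (∃ i, β i < α i) ∧ ∃ j, α j < β j := by
    simpa [Pi.le_def, not_or] using hc
  have a0 : (α - δ) i ≠ 0 := by simp [δ]; omega
  have b0 : (β - δ) j ≠ 0 := by simp [δ]; omega
  have g0 : γ - δ ≠ 0 := fun h0 => by
    have := (e4 1).apply_zero (gg s)
    beta_reduce at this
    rw [mono_eq_zero a0 rfl, mono_eq_zero b0 rfl, h0, mono_zero] at this
    exact w0 (by linarith)
  obtain ⟨k, hk⟩ := Function.ne_iff.1 g0
  have t : ∀ {α' β' : Fin n → ℕ} {u' v' w' : V n → ℝ} {j : Fin n}, IsPA (gc s) u' →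
      u' 0 ≠ 0 → α' k = 0 → α' j = 0 → β' j ≠ 0 →
      (Null (gc s) fun y => mono α' y * u' y - (mono β' y * v' y + mono (γ - δ) y * w' y)) →
      False := by
    intro α' β' u' v' w' j hu u0 ak aj bj e
    refine not_null_mul (pa_mono α') ((hu.kill k).kill j) (not_null_mono s _)
      (not_null_of_ne (by simpa using u0)) (((e.kill k).kill j).congr fun y => ?_)
    rw [mono_eq_zero bj (by simp [kill_apply, Function.update_apply]),
      mono_eq_zero hk (by simp [kill_apply]), zero_mul, zero_mul, add_zero, sub_zero,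
      mono_kill ak, mono_kill aj]
  by_cases ak : (α - δ) k = 0
  · exact t (v' := v) (w' := w) hu u0 ak (by simp [δ]; omega) b0 (e4.congr fun y => by ring)
  · exact t (v' := u) (w' := fun y => -w y) hv v0 (α' := β - δ) (by simp [δ] at ak ⊢; omega)
      (by simp [δ]; omega) a0 (e4.neg.congr fun y => by ring)

/-! ### Points and lifts -/

variable {A : Type*} {U : Ultrafilter A} {ρ : A → ℝ}

/-- an infinitesimal point whose gauge coordinate is at most a positive power of `ρ` -/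
structure Pt (U : Ultrafilter A) (ρ : A → ℝ) (s : Fin n) (z : A → V n) : Prop where
  lim : Tendsto z U (𝓝 0)
  sm : ∃ M : ℕ, ∀ᶠ a in U, |z a s| ^ M ≤ ρ a

/-- the point `z` (gauge `s`) lifts through `π` to the point `y` (gauge `s'`) -/
structure Lift (U : Ultrafilter A) (ρ : A → ℝ) (s : Fin n) (z : A → V n) (s' : Fin n)
    (π : V n → V n) (y : A → V n) : Prop where
  pa : IsPA (gc s') π
  z0 : π 0 = 0
  ho : (fun w => gc s (π w)) =O[𝓝 0] gc s'
  pt : Pt U ρ s' y
  eq : ∀ᶠ a in U, π (y a) = z a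

section

variable {s' s'' : Fin n} {z y y' : A → V n} {π π' : V n → V n}

theorem Lift.tendsto (h : Lift U ρ s z s' π y) : Tendsto π (𝓝 0) (𝓝 0) := h.pa.tendsto (gg _) h.z0

theorem Lift.pull (h : Lift U ρ s z s' π y) {F : Type*} [NormedAddCommGroup F] [NormedSpace ℝ F]
    {g : V n → F} (hg : IsPA (gc s) g) : IsPA (gc s') fun w => g (π w) :=
  hg.comp (gg _) h.pa h.z0 h.ho

theorem Lift.null (h : Lift U ρ s z s' π y) {F : Type*} [NormedAddCommGroup F]
    {g : V n → F} (hg : Null (gc s) g) : Null (gc s') fun w => g (π w) :=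
  hg.comp h.tendsto h.ho

theorem Lift.comp (h : Lift U ρ s z s' π y) (h' : Lift U ρ s' y s'' π' y') :
    Lift U ρ s z s'' (fun w => π (π' w)) y' :=
  ⟨h'.pull h.pa, by rw [h'.z0, h.z0], (h.ho.comp_tendsto h'.tendsto).trans h'.ho, h'.pt, by
    filter_upwards [h.eq, h'.eq] with a e e'
    rw [e', e]⟩

theorem lift_id (hz : Pt U ρ s z) : Lift U ρ s z s (fun w => w) z :=
  ⟨IsPA.id, rfl, isBigO_refl _ _, hz, .of_forall fun _ => rfl⟩

/-- an analytic lift that fixes a gauge coordinate -/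
theorem Lift.of_mo_fix (L : Mo.Lift U z π y) (hz : Pt U ρ s z) (e : ∀ w, π w s = w s') :
    Lift U ρ s z s' π y :=
  ⟨IsPA.of_analytic L.an, L.z0, (isBigO_refl _ _).congr_left fun w => (e w).symm, ⟨L.lim, by
    obtain ⟨M, hM⟩ := hz.sm
    exact ⟨M, by filter_upwards [hM, L.eq] with a h1 h2; rwa [← h2, e] at h1⟩⟩, L.eq⟩

/-- **gauge selection**: an analytic lift whose gauge component is monomial times unit -/
theorem Lift.of_mo (L : Mo.Lift U z π y) (hz : Pt U ρ s z) (hm : Mo.MU fun w => π w s) :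
    ∃ s', Lift U ρ s z s' π y := by
  classical
  obtain ⟨α, u, hu, u0, e⟩ := hm
  replace e : ∀ᶠ w in 𝓝 0, π w s = mono α w * u w := e
  have hα : α ≠ 0 := fun h => u0 (by simpa [h, mono_zero, L.z0] using e.self_of_nhds.symm)
  obtain ⟨i0, hi0⟩ := Function.ne_iff.1 hα
  have hex : ∀ a, ∃ i, α i ≠ 0 ∧ ∀ j, α j ≠ 0 → |y a i| ≤ |y a j| := fun a => by
    obtain ⟨i, h1, h2⟩ := (Finset.univ.filter fun i => α i ≠ 0).exists_min_image
      (fun i => |y a i|) ⟨i0, by simpa using hi0⟩
    exact ⟨i, by simpa using h1, fun j hj => h2 j (by simpa using hj)⟩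
  choose I h1 h2 using hex
  obtain ⟨i, hi⟩ := (U.map I).eq_pure_of_finite
  have hI : ∀ᶠ a in U, I a = i := show {i} ∈ U.map I by rw [hi]; simp
  obtain ⟨a0, ha0⟩ := hI.exists
  have hαi : α i ≠ 0 := ha0 ▸ h1 a0
  refine ⟨i, IsPA.of_analytic L.an, L.z0, ?_, ⟨L.lim, ?_⟩, L.eq⟩
  · have b := (isBigO_refl (fun w : V n => w i) (𝓝 0)).mul
      (((an_mono (α - Pi.single i 1) 0).mul hu).continuousAt.tendsto.isBigO_one ℝ)
    refine b.congr' ?_ (.of_forall fun w => mul_one _)
    filter_upwards [e] with w hw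
    rw [gc, hw, mono_sub hαi, mul_assoc]; rfl
  · obtain ⟨M, hM⟩ := hz.sm
    refine ⟨(∑ j, α j + 1) * M, ?_⟩
    have t1 : Tendsto (fun a => |u (y a)| - |y a i|) U (𝓝 (|u 0| - |(0 : V n) i|)) :=
      (hu.continuousAt.tendsto.comp L.lim).abs.sub (tendsto_pi_nhds.1 L.lim i).abs
    filter_upwards [hM, L.eq, hI, L.lim.eventually e,
      t1.eventually (lt_mem_nhds (show 0 < _ by simpa using u0))] with a b1 b2 b3 b4 b5
    rw [pow_mul]
    refine le_trans (pow_le_pow_left₀ (by positivity) ?_ M) b1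
    rw [← b2, b4, abs_mul, pow_succ]
    refine mul_le_mul ?_ (by linarith) (abs_nonneg _) (abs_nonneg _)
    rw [mono, Finset.abs_prod, ← Finset.prod_pow_eq_pow_sum]
    refine Finset.prod_le_prod (fun _ _ => by positivity) fun j _ => ?_
    rw [abs_pow]
    by_cases hj : α j = 0
    · simp [hj]
    · exact pow_le_pow_left₀ (abs_nonneg _) (b3 ▸ h2 a j hj) _

end

theorem Pt.tl {z : A → V (n + 1)} (hz : Pt U ρ s.succ z) : Pt U ρ s fun a => tl (z a) :=
  ⟨tendsto_tl.comp hz.lim, hz.sm⟩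

theorem Lift.tail {z : A → V (n + 1)} (hz : Tendsto z U (𝓝 0)) {s' : Fin n} {π : V n → V n}
    {y : A → V n} (h : Lift U ρ s (fun a => tl (z a)) s' π y) :
    Lift U ρ s.succ z s'.succ (fun w => cs (w 0) (π (tl w))) fun a => cs (z a 0) (y a) :=
  ⟨pa_cs (IsPA.coord 0) h.pa.tl, by simp [h.z0], h.ho.comp_tendsto tendsto_tl,
    ⟨tendsto_cs (tendsto_pi_nhds.1 hz 0) h.pt.lim, h.pt.sm⟩, by
      filter_upwards [h.eq] with a e
      simp [e]⟩

/-- a null germ is negligible at the point -/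
theorem Null.negl {F : Type*} [NormedAddCommGroup F] {z : A → V n} (hz : Pt U ρ s z)
    {g : V n → F} (hg : Null (gc s) g) (N : ℕ) :
    ∃ C : ℝ, 0 < C ∧ ∀ᶠ a in U, ‖g (z a)‖ ≤ C * ρ a ^ N := by
  obtain ⟨M, hM⟩ := hz.sm
  obtain ⟨C, hC, hb⟩ := IsBigO.exists_pos (hg (M * N))
  refine ⟨C, hC, ?_⟩
  filter_upwards [hM, hz.lim.eventually hb.bound] with a h1 h2
  refine h2.trans (mul_le_mul_of_nonneg_left ?_ hC.le)
  rw [Real.norm_eq_abs, abs_pow, pow_mul]
  exact pow_le_pow_left₀ (by positivity) h1 N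

end Crest.Agent.N250.PA
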