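import Crest.Agent.N250.L.PA3

/-!
# Row 250, block (L): MONOMIALISATION of pro-analytic germs along an ultrafilter point (helper53, after helper31)
-/

set_option autoImplicit false
set_option linter.unusedVariables false

open Set Filter Topology Asymptotics Metric
open scoped Nat

noncomputable section

namespace Crest.Agent.N250.PA

open Crest.Agent.N250.Mo (V mono kill cs tl NZ kill_apply kill_tendsto mono_zero mono_add mono_smul
  mono_single mono_eq_zero mono_at_zero mono_sub sum_sub_lt an_mono an_coord an_tl an_cs cs_zero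
  cs_succ tl_cs tl_apply tl_zero cs_tl cs_zero_zero tendsto_tl tendsto_cs reg blow mono_pw)

variable {n m : ℕ} {A : Type*} {U : Ultrafilter A} {ρ : A → ℝ}

/-- the monomialisation statement in dimension `n` -/
def Mon (U : Ultrafilter A) (ρ : A → ℝ) (n : ℕ) : Prop :=
  ∀ (s : Fin n) (z : A → V n), Pt U ρ s z → ∀ g : V n → ℝ, IsPA (gc s) g → ¬ Null (gc s) g →
    ∃ s' π y, Lift U ρ s z s' π y ∧ MU s' fun w => g (π w)

/-- preparation of the coefficients -/
theorem prep (hM : Mon U ρ n) {s : Fin n} {d : ℕ} {a : ℕ → V n → ℝ} (ha : ∀ j, IsPA (gc s) (a j))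
    (h0 : ∀ j < d, a j 0 = 0) (hJ : ∃ j < d, ¬ Null (gc s) (a j)) {x : A → V n}
    (hx : Pt U ρ s x) :
    ∃ s' π y, ∃ (β : Fin n → ℕ) (b : ℕ → V n → ℝ), Lift U ρ s x s' π y ∧
      (∀ i, MU s' fun w => π w i) ∧ β ≠ 0 ∧ (∀ j, IsPA (gc s') (b j)) ∧
      (∀ j < d, Null (gc s') fun w => a j (π w) - mono ((d - j) • β) w * b j w) ∧
      (∃ j < d, b j 0 ≠ 0) ∧ ∀ j, Null (gc s) (a j) → b j 0 = 0 := by
  classical
  set J := (Finset.range d).filter fun j => ¬ Null (gc s) (a j) with hJd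
  have mJ : ∀ j, j ∈ J ↔ j < d ∧ ¬ Null (gc s) (a j) := fun j => by simp [hJd]
  let D : ℕ × ℕ → V n → ℝ := fun p w => a p.1 w ^ (d ! / (d - p.1)) - a p.2 w ^ (d ! / (d - p.2))
  have hD : ∀ p, IsPA (gc s) (D p) := fun p => ((ha _).pow (gg s) _).sub ((ha _).pow (gg s) _)
  set K := (J ×ˢ J).filter fun p => ¬ Null (gc s) (D p) with hK
  have a1 : IsPA (gc s) fun w : V n => ∏ i, w i := IsPA.prod (gg s) fun i _ => IsPA.coord i
  have a2 : IsPA (gc s) fun w : V n => ∏ j ∈ J, a j w := IsPA.prod (gg s) fun j _ => ha j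
  have a3 : IsPA (gc s) fun w : V n => ∏ p ∈ K, D p w := IsPA.prod (gg s) fun p _ => hD p
  obtain ⟨s1, π, y, L, hG⟩ := hM s x hx
    (fun w => (∏ i, w i) * ((∏ j ∈ J, a j w) * ∏ p ∈ K, D p w)) (a1.mul (gg s) (a2.mul (gg s) a3))
    (not_null_mul a1 (a2.mul (gg s) a3)
      (not_null_prod _ (fun i _ => IsPA.coord i) fun i _ => not_null_coord s i)
      (not_null_mul a2 a3 (not_null_prod _ (fun j _ => ha j) fun j hj => ((mJ j).1 hj).2)
        (not_null_prod _ (fun p _ => hD p) fun p hp => (Finset.mem_filter.1 hp).2)))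
  have m1 := MU.of_mul (L.pull a1) (L.pull (a2.mul (gg s) a3)) hG
  have m23 := MU.of_mul (L.pull (a2.mul (gg s) a3)) (L.pull a1) (hG.congr' fun w => mul_comm _ _)
  have m2 := MU.of_mul (L.pull a2) (L.pull a3) m23
  have m3 := MU.of_mul (L.pull a3) (L.pull a2) (m23.congr' fun w => mul_comm _ _)
  have n1 : ∀ i, MU s1 fun w => π w i := fun i =>
    MU.of_prod (f := fun i w => π w i) (fun i _ => L.pa.apply i) m1 (Finset.mem_univ i)
  have n2 : ∀ j, ∃ (α : Fin n → ℕ) (u : V n → ℝ), IsPA (gc s1) u ∧ u 0 ≠ 0 ∧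
      (j ∈ J → Null (gc s1) fun w => a j (π w) - mono α w * u w) := fun j => by
    by_cases hj : j ∈ J
    · obtain ⟨α, u, h1, h2, h3⟩ :=
        MU.of_prod (f := fun j w => a j (π w)) (fun j _ => L.pull (ha j)) m2 hj
      exact ⟨α, u, h1, h2, fun _ => h3⟩
    · exact ⟨0, fun _ => 1, IsPA.const _, one_ne_zero, fun h => absurd h hj⟩
  choose α u hu u0 e using n2
  let γ : ℕ → Fin n → ℕ := fun j => (d ! / (d - j)) • α j
  have hc : ∀ j ∈ J, ∀ k ∈ J, γ j ≤ γ k ∨ γ k ≤ γ j := fun j hj k hk => by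
    have pw : ∀ j ∈ J, Null (gc s1) fun w => a j (π w) ^ (d ! / (d - j)) -
        (mono (α j) w * u j w) ^ (d ! / (d - j)) := fun j hj =>
      Null.analytic_congr (gg _) (L.pull (ha j)) (e j hj)
        (show AnalyticAt ℝ (fun x : ℝ => x ^ (d ! / (d - j))) _ from analyticAt_id.pow _)
    have e1 : Null (gc s1) fun w => (mono (γ j) w * u j w ^ (d ! / (d - j)) -
        mono (γ k) w * u k w ^ (d ! / (d - k))) - D (j, k) (π w) :=
      ((pw k hk).sub (pw j hj)).congr fun w => by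
        simp only [D, γ, mono_smul, mul_pow]; ring
    by_cases h : Null (gc s) (D (j, k))
    · exact Or.inr (le_of_eq ((hu j).pow (gg _) (d ! / (d - j))) ((hu k).pow (gg _) (d ! / (d - k)))
        (pow_ne_zero _ (u0 j)) ((e1.add (L.null h)).congr fun w => by ring))
    · exact cmp ((hu j).pow (gg _) _) ((hu k).pow (gg _) _) (pow_ne_zero _ (u0 j))
        (pow_ne_zero _ (u0 k))
        ((MU.of_prod (f := fun p w => D p (π w)) (fun p _ => L.pull (hD p)) m3
          (Finset.mem_filter.2 ⟨Finset.mem_product.2 ⟨hj, hk⟩, h⟩)).congr e1)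
  obtain ⟨j0, hj0, hmin⟩ := J.exists_min_image (fun j => ∑ i, γ j i)
    (hJ.imp fun j hj => (mJ j).2 hj)
  have hle : ∀ j ∈ J, γ j0 ≤ γ j := fun j hj => (hc j0 hj0 j hj).elim id fun h i => by
    by_contra hi
    exact absurd (Finset.sum_lt_sum (fun i _ => h i) ⟨i, Finset.mem_univ _, not_le.1 hi⟩)
      (not_lt.2 (hmin j hj))
  have hγ : ∀ j ∈ J, (d - j) • γ j = d ! • α j := fun j hj => by
    have h1 := ((mJ j).1 hj).1
    rw [smul_smul, Nat.mul_div_cancel' (Nat.dvd_factorial (by omega) (by omega))]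
  obtain ⟨ε, y', hε, L0⟩ := Mo.power d.factorial_ne_zero L.pt.lim
  have mp : ∀ k, Mo.MU fun w : V n => ε k * w k ^ d ! := fun k =>
    (Mo.mu_unit analyticAt_const (hε k)).mul ((Mo.mu_coord k).pow _)
  obtain ⟨s2, L'⟩ := Lift.of_mo L0 L.pt (mp s1)
  have hε' : ∀ α : Fin n → ℕ, mono α ε ≠ 0 := fun α =>
    Finset.prod_ne_zero_iff.2 fun i _ => pow_ne_zero _ (hε i)
  refine ⟨s2, _, y', γ j0, fun j w => if j ∈ J then mono (α j) ε *
    mono (d ! • α j - (d - j) • γ j0) w * u j fun i => ε i * w i ^ d ! else 0, L.comp L',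
    fun i => (n1 i).comp L'.z0 L'.ho fun k => MU.of_mo (mp k),
    fun hb => ?_, fun j => ?_, fun j hj => ?_, ⟨j0, ((mJ j0).1 hj0).1, ?_⟩, fun j hj => ?_⟩
  · have h1 := hγ j0 hj0
    rw [hb, smul_zero, eq_comm, smul_eq_zero_iff_right d.factorial_ne_zero] at h1
    have h2 := sub_eq_zero.1 ((e j0 hj0 1).apply_zero (gg _))
    rw [L.z0, h0 j0 ((mJ j0).1 hj0).1, h1, mono_zero, one_mul] at h2
    exact u0 j0 h2.symm
  · by_cases hj : j ∈ J
    · simp only [if_pos hj]
      exact ((IsPA.const _).mul (gg _) (pa_mono _)).mul (gg _) (L'.pull (hu j))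
    · simp only [if_neg hj]
      exact IsPA.const _
  · by_cases hj' : j ∈ J
    · refine (L'.null (e j hj')).congr fun w => ?_
      have h1 : (d - j) • γ j0 ≤ d ! • α j := hγ j hj' ▸ nsmul_le_nsmul_right (hle j hj') _
      beta_reduce
      rw [if_pos hj', mono_pw, ← add_tsub_cancel_of_le h1, mono_add, add_tsub_cancel_left]
      ring
    · refine ((L.comp L').null (not_not.1 fun h => hj' ((mJ j).2 ⟨hj, h⟩))).congr fun w => ?_
      beta_reduce
      rw [if_neg hj', mul_zero, sub_zero]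
  · have h1 : (fun i => ε i * (0 : V n) i ^ d !) = 0 := L'.z0
    simp only [if_pos hj0, hγ j0 hj0, tsub_self, mono_zero, h1]
    exact mul_ne_zero (mul_ne_zero (hε' _) one_ne_zero) (u0 j0)
  · exact if_neg fun h => ((mJ j).1 h).2 hj

/-- the conclusion of the inner induction -/
def Res (U : Ultrafilter A) (ρ : A → ℝ) (s : Fin n) (z : A → V (n + 1)) (g : V (n + 1) → ℝ) : Prop :=
  ∃ s' π y, Lift U ρ s.succ z s' π y ∧ (MU s' fun w => g (π w)) ∧
    ∀ i : Fin n, MU s' fun w => π w i.succ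

theorem core (hM : Mon U ρ n) {e : ℕ}
    (ih : ∀ k < e + 1, ∀ (s : Fin n) (g : V (n + 1) → ℝ) (z : A → V (n + 1)),
      IsPA (gc s.succ) g → Pt U ρ s.succ z → reg g k ≠ 0 → Res U ρ s z g)
    {s : Fin n} {g u : V (n + 1) → ℝ} {a : ℕ → V n → ℝ} (ha : ∀ j, IsPA (gc s) (a j))
    (hu : IsPA (gc s.succ) u) (u0 : u 0 ≠ 0) (h0 : ∀ j < e + 1, a j 0 = 0)
    (he : Null (gc s) (a e))
    (hg : Null (gc s.succ) fun w => g w - (∑ j ∈ Finset.range (e + 1), a j (tl w) * w 0 ^ j +
      w 0 ^ (e + 1) * u w)) {z : A → V (n + 1)} (hz : Pt U ρ s.succ z) : Res U ρ s z g := by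
  by_cases hJ : ∃ j < e + 1, ¬ Null (gc s) (a j)
  swap
  · refine ⟨_, _, _, lift_id hz, (((mu_coord 0).pow (e + 1)).mul (mu_unit hu u0)).congr ?_,
      fun i => mu_coord _⟩
    have h1 : Null (gc s.succ) fun w => ∑ j ∈ Finset.range (e + 1), a j (tl w) * w 0 ^ j :=
      Null.sum fun j hj => (Null.tl (not_not.1 fun h => hJ ⟨j, Finset.mem_range.1 hj, h⟩)).mul_right
        (gg _) ((IsPA.coord 0).pow (gg _) j)
    exact (hg.add h1).congr fun w => by ring
  obtain ⟨s1, π, y, β, b, L, hπ, hβ, hb, e1, b0, b1⟩ := prep hM ha h0 hJ hz.tl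
  have L1 := L.tail hz.lim
  have e2 : Null (gc s1.succ) fun w => g (cs (w 0) (π (tl w))) -
      (∑ j ∈ Finset.range (e + 1), mono β (tl w) ^ (e + 1 - j) * b j (tl w) * w 0 ^ j +
        w 0 ^ (e + 1) * u (cs (w 0) (π (tl w)))) := by
    refine ((L1.null hg).add (Null.sum (s := Finset.range (e + 1)) fun j hj =>
      (e1 j (Finset.mem_range.1 hj)).tl.mul_right (gg _) ((IsPA.coord 0).pow (gg _) j))).congr
      fun w => ?_
    simp only [tl_cs, cs_zero, mono_smul, sub_mul, Finset.sum_sub_distrib]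
    ring
  rcases Mo.ratio U (fun a => z a 0) (fun a => mono β (y a)) with ⟨c, σ, hσ, e3⟩ | e3
  · have L2 := Lift.of_mo_fix (s' := s1.succ) (Mo.lift_blow hβ L1.pt.lim hσ e3) L1.pt fun w => rfl
    have hc : IsPA (gc s1.succ) fun w : V (n + 1) => c + w 0 := (IsPA.const c).add (IsPA.coord 0)
    obtain ⟨k, hk, h1⟩ := Mo.poly_ord (b := fun j => b j 0) (c := c) u0 (b1 e he) b0
    obtain ⟨s3, π3, y3, L3, m1, m2⟩ := ih k hk s1 (fun w => ∑ j ∈ Finset.range (e + 1),
      b j (tl w) * (c + w 0) ^ j + (c + w 0) ^ (e + 1) * u (cs (blow β c w 0) (π (tl w)))) _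
      ((IsPA.sum fun j _ => (hb j).tl.mul (gg _) (hc.pow (gg _) j)).add
        ((hc.pow (gg _) _).mul (gg _) ((L1.comp L2).pull hu))) L2.pt
      (by simpa [reg, blow, mono_at_zero hβ, L.z0] using h1)
    have t0 : tl (π3 0) = 0 := by rw [L3.z0, tl_zero]
    refine ⟨s3, _, y3, (L1.comp L2).comp L3,
      ((((mu_mono (s := s1) β).comp (ρ := fun w => tl (π3 w)) t0 L3.ho m2).pow
      (e + 1)).mul m1).congr ?_, fun i => (hπ i).comp t0 L3.ho m2⟩
    refine ((L2.comp L3).null e2).congr fun w => ?_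
    congr 1
    simp only [blow, tl_cs, cs_zero, mul_add _ (∑ j ∈ _, _), Finset.mul_sum, mul_pow]
    congr 1
    · refine Finset.sum_congr rfl fun j hj => ?_
      rw [← pow_sub_mul_pow (mono β (tl (π3 w))) (Finset.mem_range.1 hj).le]
      ring
    · ring
  · obtain ⟨π3, y3, h, L0, m0, hh, h0', e4⟩ := Mo.toric β L1.pt.lim e3
    obtain ⟨s3, L3⟩ := Lift.of_mo L0 L1.pt (m0 s1.succ)
    have m1 : ∀ i, MU s3 fun w => π3 w i := fun i => MU.of_mo (m0 i)
    have t0 : tl (π3 0) = 0 := by rw [L3.z0, tl_zero]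
    refine ⟨s3, _, y3, L1.comp L3, (((m1 0).pow (e + 1)).mul (mu_unit (u := fun w =>
      ∑ j ∈ Finset.range (e + 1), h w ^ (e + 1 - j) * b j (tl (π3 w)) +
        u (cs (π3 w 0) (π (tl (π3 w)))))
      ((IsPA.sum fun j _ => ((IsPA.of_analytic hh).pow (gg _) _).mul (gg _) (L3.pull (hb j).tl)).add
        ((L1.comp L3).pull hu)) ?_)).congr ?_,
      fun i => (hπ i).comp t0 L3.ho fun i => m1 i.succ⟩
    · rw [Finset.sum_eq_zero fun j hj => by
        rw [h0', zero_pow (Nat.sub_ne_zero_of_lt (Finset.mem_range.1 hj)), zero_mul]]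
      simpa [L3.z0, L.z0] using u0
    · refine (L3.null e2).congr' ?_
      filter_upwards [e4] with w h4
      rw [h4, mul_add, Finset.mul_sum]
      congr 2
      refine Finset.sum_congr rfl fun j hj => ?_
      rw [← pow_sub_mul_pow (π3 w 0) (Finset.mem_range.1 hj).le]
      ring

theorem res (hM : Mon U ρ n) (d : ℕ) : ∀ (s : Fin n) (g : V (n + 1) → ℝ) (z : A → V (n + 1)),
    IsPA (gc s.succ) g → Pt U ρ s.succ z → reg g d ≠ 0 → Res U ρ s z g := by
  induction d using Nat.strong_induction_on with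
  | _ d ih =>
  intro s g z hg hz hd
  by_cases h : ∃ k < d, reg g k ≠ 0
  · obtain ⟨k, hk, h⟩ := h
    exact ih k hk s g z hg hz h
  push Not at h
  rcases d with _ | e
  · exact ⟨_, _, _, lift_id hz, mu_unit hg (by simpa [reg] using hd), fun i => mu_coord _⟩
  obtain ⟨ψ, a, u, hψ, ψ0, ha, hu, he, c1, c2, e2⟩ := hg.tschirn (h e e.lt_succ_self) hd
  have L : Lift U ρ s.succ z s.succ (fun w => cs (w 0 + ψ (tl w)) (tl w))
      fun a => cs (z a 0 - ψ (tl (z a))) (tl (z a)) :=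
    ⟨pa_cs ((IsPA.coord 0).add hψ.tl) (IsPA.of_analytic (an_tl 0)), by simp [ψ0], isBigO_refl _ _,
      ⟨tendsto_cs (by
        simpa using (tendsto_pi_nhds.1 hz.lim 0).sub
          ((hψ.tendsto (gg _) ψ0).comp (tendsto_tl.comp hz.lim))) (tendsto_tl.comp hz.lim), hz.sm⟩,
      .of_forall fun a => by simp⟩
  obtain ⟨s', π, y, L', m1, m2⟩ := core hM ih ha hu (fun h0 => hd (by rw [c2, h0, mul_zero]))
    (fun j hj => (mul_eq_zero.1 ((c1 j hj).symm.trans (h j hj))).resolve_left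
      (Nat.cast_ne_zero.2 j.factorial_ne_zero)) he e2 L.pt
  exact ⟨s', _, y, L.comp L', m1, m2⟩

theorem mon_succ (hM : Mon U ρ n) (s : Fin n) (z : A → V (n + 1)) (hz : Pt U ρ s.succ z)
    (g : V (n + 1) → ℝ) (hg : IsPA (gc s.succ) g) (h : ¬ Null (gc s.succ) g) :
    ∃ s' π y, Lift U ρ s.succ z s' π y ∧ MU s' fun w => g (π w) := by
  obtain ⟨k, g', hg', e, hn⟩ := hg.strip h
  obtain ⟨v0, d, hv0, hd⟩ := Mo.exists_dir hg'.an_kill hn
  set v := kill s.succ v0 with hv
  have v0' : v 0 ≠ 0 := by simpa [hv, kill_apply, (Fin.succ_ne_zero s).symm] using hv0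
  have vs : v s.succ = 0 := by simp [hv, kill_apply]
  have t0 : Tendsto (fun a => z a 0 / v 0) U (𝓝 0) := by
    simpa using (tendsto_pi_nhds.1 hz.lim 0).div_const (v 0)
  have L0 : Mo.Lift U z (fun w => w 0 • v + cs 0 (tl w))
      fun a => cs (z a 0 / v 0) (tl (z a) - (z a 0 / v 0) • tl v) :=
    ⟨((an_coord 0 0).smul analyticAt_const).add (an_cs analyticAt_const (an_tl 0)), by simp,
      tendsto_cs t0 (by simpa using (tendsto_tl.comp hz.lim).sub (t0.smul_const (tl v))),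
      .of_forall fun a => funext fun i => Fin.cases (by simp [v0']) (fun i => by simp) i⟩
  have L := Lift.of_mo_fix (s' := s.succ) L0 hz fun w => by simp [vs]
  obtain ⟨s', π, y, L', m1, m2⟩ := res hM d s _ _ (L.pull hg') L.pt
    (by simpa [reg, hv] using hd)
  refine ⟨s', _, y, L.comp L', (((m2 s).pow k).mul m1).congr ?_⟩
  refine ((L.comp L').null e).congr fun w => ?_
  simp [vs]

/-- MONOMIALISATION -/
theorem mon (U : Ultrafilter A) (ρ : A → ℝ) (n : ℕ) : Mon U ρ n := by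
  induction n with
  | zero => exact fun s => s.elim0
  | succ n ih =>
    intro s z hz g hg h
    by_cases hs : s = 0
    swap
    · obtain ⟨s, rfl⟩ := Fin.exists_succ_eq.2 hs
      exact mon_succ ih s z hz g hg h
    subst hs
    rcases n with _ | n
    · obtain ⟨k, g', hg', e, hn⟩ := hg.strip h
      refine ⟨_, _, _, lift_id hz, (((mu_coord 0).pow k).mul (mu_unit hg' fun h0 => hn ?_)).congr e⟩
      refine .of_forall fun w => ?_
      have : kill 0 w = 0 := funext fun i => by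
        rw [Fin.fin_one_eq_zero i]
        simp [kill_apply]
      show g' (kill 0 w) = 0
      rw [this, h0]
    · let σ : Fin (n + 2) → Fin (n + 2) := Equiv.swap 0 (Fin.succ 0)
      have L0 : Mo.Lift U z (fun w i => w (σ i)) fun a i => z a (σ i) :=
        ⟨analyticAt_pi_iff.2 fun i => an_coord _ _, rfl,
          tendsto_pi_nhds.2 fun i => tendsto_pi_nhds.1 hz.lim _,
          .of_forall fun a => funext fun i => by simp [σ]⟩
      have L := Lift.of_mo_fix (s' := Fin.succ 0) L0 hz fun w => by simp [σ]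
      have h' : ¬ Null (gc (Fin.succ 0 : Fin (n + 2))) fun w => g fun i => w (σ i) := fun hn => h (by
        have := hn.comp (om' := gc 0) (π := fun w i => w (σ i)) L0.tendsto
          ((isBigO_refl _ _).congr_left fun w => by simp [σ, gc])
        exact this.congr fun w => by simp [σ])
      obtain ⟨s', π, y, L', m1⟩ := mon_succ ih 0 _ L.pt _ (L.pull hg) h'
      exact ⟨s', _, y, L.comp L', m1⟩

/-- **simultaneous monomialisation** of a finite family of pro-analytic germs along a point -/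
theorem mon_fam {ι : Type*} [Finite ι] {s : Fin n} {g : ι → V n → ℝ}
    (hg : ∀ j, IsPA (gc s) (g j)) {z : A → V n} (hz : Pt U ρ s z) :
    ∃ s' π y, Lift U ρ s z s' π y ∧ ∀ j, ¬ Null (gc s) (g j) → MU s' fun w => g j (π w) := by
  classical
  have := Fintype.ofFinite ι
  obtain ⟨s', π, y, L, h⟩ := mon U ρ n s z hz
    (fun w => ∏ j ∈ Finset.univ.filter fun j => ¬ Null (gc s) (g j), g j w)
    (IsPA.prod (gg s) fun j _ => hg j)
    (not_null_prod _ (fun j _ => hg j) fun j hj => (Finset.mem_filter.1 hj).2)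
  exact ⟨s', π, y, L, fun j hj => MU.of_prod (f := fun j w => g j (π w))
    (fun j _ => L.pull (hg j)) h (Finset.mem_filter.2 ⟨Finset.mem_univ _, hj⟩)⟩

end Crest.Agent.N250.PA
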