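import Crest.Agent.N250.L.Div

/-!
Row 250, block L (helper31): lifting an ultrafilter point through elementary maps (blow ups, power
substitutions), the toric step, expansions in the first variable.
-/

set_option autoImplicit false
set_option linter.unusedSectionVars false
set_option linter.unusedVariables false

open Set Filter Topology Metric
open scoped ContDiff NNReal Nat

noncomputable section

namespace Crest.Agent.N250.Mo

variable {n m : ℕ} {A : Type*} {U : Ultrafilter A}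

/-- the point `z` lifts through the analytic germ `π` to the point `y` -/
structure Lift (U : Ultrafilter A) (z : A → V n) (π : V n → V n) (y : A → V n) : Prop where
  an : AnalyticAt ℝ π 0
  z0 : π 0 = 0
  lim : Tendsto y U (𝓝 0)
  eq : ∀ᶠ a in U, π (y a) = z a

lemma Lift.comp {z y y' : A → V n} {π π' : V n → V n} (h : Lift U z π y) (h' : Lift U y π' y') :
    Lift U z (fun w => π (π' w)) y' :=
  ⟨an_comp h.an h'.an h'.z0, by rw [h'.z0, h.z0], h'.lim, by
    filter_upwards [h.eq, h'.eq] with a e e'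
    rw [e', e]⟩

lemma Lift.tendsto {z y : A → V n} {π : V n → V n} (h : Lift U z π y) :
    Tendsto π (𝓝 0) (𝓝 0) := tendsto_of_an h.an h.z0

lemma lift_id {z : A → V n} (hz : Tendsto z U (𝓝 0)) : Lift U z (fun w => w) z :=
  ⟨analyticAt_id, rfl, hz, .of_forall fun _ => rfl⟩

/-- first coordinate and tail -/
def cs (t : ℝ) (x : V n) : V (n + 1) := Fin.cons t x
/-- tail -/
def tl (w : V (n + 1)) : V n := fun i => w i.succ

@[simp] lemma cs_zero (t : ℝ) (x : V n) : cs t x 0 = t := rfl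
@[simp] lemma cs_succ (t : ℝ) (x : V n) (i : Fin n) : cs t x i.succ = x i := rfl
@[simp] lemma tl_cs (t : ℝ) (x : V n) : tl (cs t x) = x := rfl
@[simp] lemma tl_apply (w : V (n + 1)) (i : Fin n) : tl w i = w i.succ := rfl
@[simp] lemma tl_zero : tl (0 : V (n + 1)) = 0 := rfl
@[simp] lemma cs_tl (w : V (n + 1)) : cs (w 0) (tl w) = w := Fin.cons_self_tail w
@[simp] lemma cs_zero_zero : cs 0 (0 : V n) = 0 := cs_tl 0

lemma an_tl (w : V (n + 1)) : AnalyticAt ℝ tl w := analyticAt_pi_iff.2 fun i => an_coord _ w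

lemma an_cs {E : Type*} [NormedAddCommGroup E] [NormedSpace ℝ E] {f : E → ℝ} {g : E → V n} {x : E}
    (hf : AnalyticAt ℝ f x) (hg : AnalyticAt ℝ g x) : AnalyticAt ℝ (fun y => cs (f y) (g y)) x :=
  analyticAt_pi_iff.2 fun i => Fin.cases hf (fun i => analyticAt_pi_iff.1 hg i) i

lemma an_tl' {g : V n → ℝ} (hg : AnalyticAt ℝ g 0) : AnalyticAt ℝ (fun w => g (tl w)) 0 :=
  an_comp hg (an_tl 0) rfl

lemma tendsto_tl : Tendsto tl (𝓝 0) (𝓝 (0 : V n)) := tendsto_of_an (an_tl 0) rfl

lemma tendsto_cs {l : Filter A} {f : A → ℝ} {g : A → V n} (hf : Tendsto f l (𝓝 0))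
    (hg : Tendsto g l (𝓝 0)) : Tendsto (fun a => cs (f a) (g a)) l (𝓝 0) :=
  tendsto_pi_nhds.2 fun i => Fin.cases hf (fun i => tendsto_pi_nhds.1 hg i) i

lemma MU.tl {g : V n → ℝ} (hg : MU g) : MU fun w => g (tl w) :=
  hg.comp rfl fun i => mu_coord _

lemma Lift.tail {z : A → V (n + 1)} (hz : Tendsto z U (𝓝 0)) {π : V n → V n} {y : A → V n}
    (h : Lift U (fun a => tl (z a)) π y) :
    Lift U z (fun w => cs (w 0) (π (tl w))) fun a => cs (z a 0) (y a) :=
  ⟨an_cs (an_coord 0 0) (an_comp h.an (an_tl 0) rfl), by simp [h.z0],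
    tendsto_cs (tendsto_pi_nhds.1 hz 0) h.lim, by
      filter_upwards [h.eq] with a e
      simp [e]⟩

lemma ratio (U : Ultrafilter A) (f g : A → ℝ) :
    (∃ (c : ℝ) (σ : A → ℝ), Tendsto σ U (𝓝 0) ∧ ∀ᶠ a in U, f a = g a * (c + σ a)) ∨
      ∀ C : ℝ, ∀ᶠ a in U, C * |g a| < |f a| := by
  by_cases h : ∀ C : ℝ, ∀ᶠ a in U, C * |g a| < |f a|
  · exact Or.inr h
  obtain ⟨C, hC⟩ := not_forall.1 h
  have h1 : ∀ᶠ a in U, |f a| ≤ C * |g a| :=
    (Ultrafilter.eventually_not.2 hC).mono fun a ha => not_lt.1 ha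
  obtain ⟨c, -, hc⟩ := (isCompact_closedBall (0 : ℝ) |C|).ultrafilter_le_nhds
    (U.map fun a => f a / g a) (le_principal_iff.2 (by
      rw [Ultrafilter.coe_map, mem_map]
      filter_upwards [h1] with a ha
      rw [mem_preimage, mem_closedBall_zero_iff, Real.norm_eq_abs, abs_div]
      exact div_le_of_le_mul₀ (abs_nonneg _) (abs_nonneg _)
        (ha.trans (mul_le_mul_of_nonneg_right (le_abs_self _) (abs_nonneg _)))))
  refine Or.inl ⟨c, fun a => f a / g a - c, tendsto_sub_nhds_zero_iff.2 hc, ?_⟩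
  filter_upwards [h1] with a ha
  by_cases h0 : g a = 0
  · simpa [h0] using ha
  · field_simp; ring

/-- blow up chart -/
def blow (β : Fin n → ℕ) (c : ℝ) (w : V (n + 1)) : V (n + 1) :=
  cs (mono β (tl w) * (c + w 0)) (tl w)

lemma lift_blow {β : Fin n → ℕ} (hβ : β ≠ 0) {c : ℝ} {σ : A → ℝ} {z : A → V (n + 1)}
    (hz : Tendsto z U (𝓝 0)) (hσ : Tendsto σ U (𝓝 0))
    (e : ∀ᶠ a in U, z a 0 = mono β (tl (z a)) * (c + σ a)) :
    Lift U z (blow β c) fun a => cs (σ a) (tl (z a)) :=
  ⟨an_cs ((an_tl' (an_mono β 0)).mul (analyticAt_const.add (an_coord 0 0))) (an_tl 0),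
    by simp [blow, mono_at_zero hβ], tendsto_cs hσ (tendsto_tl.comp hz), by
      filter_upwards [e] with a ha
      simp [blow, ← ha]⟩

lemma mu_blow (β : Fin n → ℕ) (c : ℝ) (i : Fin (n + 1)) : MU fun w => blow β c w i := by
  refine Fin.cases ((mu_mono β).tl.mul ?_) (fun i => mu_coord i.succ) i
  by_cases hc : c = 0
  · simpa [hc] using mu_coord 0
  · exact mu_unit (analyticAt_const.add (an_coord 0 0)) (by simpa using hc)

/-- the toric step -/
lemma toric (β : Fin n → ℕ) {z : A → V (n + 1)} (hz : Tendsto z U (𝓝 0))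
    (h : ∀ C : ℝ, ∀ᶠ a in U, C * |mono β (tl (z a))| < |z a 0|) :
    ∃ π y, ∃ h : V (n + 1) → ℝ, Lift U z π y ∧ (∀ i, MU fun w => π w i) ∧ AnalyticAt ℝ h 0 ∧
      h 0 = 0 ∧ ∀ᶠ w in 𝓝 0, mono β (tl (π w)) = π w 0 * h w := by
  induction hk : ∑ j, β j using Nat.strong_induction_on generalizing β z with
  | _ k ih =>
  by_cases h0 : β = 0
  · have h1 : ∀ᶠ a in U, |z a 0| < 1 :=
      (tendsto_pi_nhds.1 hz 0).abs.eventually (gt_mem_nhds (by simp))
    obtain ⟨a, h2, h3⟩ := ((h 1).and h1).exists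
    rw [h0, mono_zero] at h2
    simp at h2; linarith
  obtain ⟨i, hi⟩ := Function.ne_iff.1 h0
  replace hi : β i ≠ 0 := hi
  have hs : (Pi.single i 1 : Fin n → ℕ) ≠ 0 := fun e => by simpa using congrFun e i
  rcases ratio U (fun a => z a 0) (fun a => z a i.succ) with ⟨c, σ, hσ, e⟩ | e
  · have L := lift_blow hs hz hσ (c := c) (by simpa only [mono_single, tl_apply] using e)
    by_cases hc : c = 0
    · obtain ⟨π, y, h', L', hm, ha, h0', e'⟩ := ih _ (hk ▸ sum_sub_lt hi) _ L.lim (fun C => by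
        filter_upwards [h C, e] with a h1 h2
        rw [mono_sub hi, h2, hc, zero_add, abs_mul, abs_mul, mul_left_comm] at h1
        exact lt_of_mul_lt_mul_left h1 (abs_nonneg _)) rfl
      refine ⟨_, y, h', L.comp L', fun j => (mu_blow _ c j).comp L'.z0 hm, ha, h0', ?_⟩
      filter_upwards [e'] with w hw
      simp only [blow, tl_cs, cs_zero, mono_single, hc, zero_add]
      rw [mono_sub hi, hw, mul_assoc]
    · have hb : β - Pi.single i 1 ≠ 0 := fun hb => by
        have h1 : ∀ᶠ a in U, |σ a| < 1 := hσ.abs.eventually (gt_mem_nhds (by simp))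
        obtain ⟨a, h2, h3, h4⟩ := ((h (|c| + 1)).and (h1.and e)).exists
        rw [mono_sub hi, hb, mono_zero, mul_one, h4, abs_mul, mul_comm] at h2
        have h5 := lt_of_mul_lt_mul_left h2 (abs_nonneg _)
        have h6 := abs_add_le c (σ a)
        linarith
      have hu : AnalyticAt ℝ (fun w : V (n + 1) => c + w 0) 0 :=
        analyticAt_const.add (an_coord 0 0)
      have u0 : c + (0 : V (n + 1)) 0 ≠ 0 := by simpa using hc
      refine ⟨_, _, fun w => mono (β - Pi.single i 1) (tl w) / (c + w 0), L, mu_blow _ c,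
        (an_tl' (an_mono _ 0)).fun_div hu u0, by simp [mono_at_zero hb], ?_⟩
      filter_upwards [hu.continuousAt.eventually_ne u0] with w hw
      simp only [blow, tl_cs, cs_zero, mono_single]
      rw [mono_sub hi]
      field_simp
  · have hm : ∀ j, MU fun w : V (n + 1) => (if j = i.succ then w 0 else 1) * w j := fun j => by
      refine MU.mul ?_ (mu_coord j)
      split_ifs
      exacts [mu_coord 0, mu_unit analyticAt_const one_ne_zero]
    have e0 : ∀ᶠ a in U, z a 0 ≠ 0 := (e 0).mono fun a ha => by simpa using ha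
    refine ⟨fun w j => (if j = i.succ then w 0 else 1) * w j,
      fun a j => if j = i.succ then z a j / z a 0 else z a j,
      fun w => w 0 ^ (β i - 1) * mono β (tl w),
      ⟨analyticAt_pi_iff.2 fun j => (hm j).an, by ext j; simp, tendsto_pi_nhds.2 fun j => ?_, ?_⟩,
      hm, ((an_coord 0 0).pow _).mul (an_tl' (an_mono β 0)), by simp [mono_at_zero h0],
      .of_forall fun w => ?_⟩
    · split_ifs with hj
      · subst hj
        refine Metric.tendsto_nhds.2 fun ε hε => ?_
        filter_upwards [e ε⁻¹, e0] with a h1 h2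
        rw [Pi.zero_apply, dist_zero_right, Real.norm_eq_abs, abs_div,
          div_lt_iff₀ (abs_pos.2 h2)]
        rwa [inv_mul_lt_iff₀ hε] at h1
      · exact tendsto_pi_nhds.1 hz j
    · filter_upwards [e0] with a ha
      funext j
      by_cases hj : j = i.succ
      · simp only [hj, if_true, if_neg (Fin.succ_ne_zero i).symm]
        field_simp
      · simp [hj]
    · simp only [mono, tl_apply, mul_pow, Finset.prod_mul_distrib, Fin.succ_inj,
        if_neg (Fin.succ_ne_zero i).symm, one_mul]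
      rw [Finset.prod_eq_single i (by simp +contextual) (by simp), if_pos rfl, ← mul_assoc,
        mul_pow_sub_one hi]

/-- power substitution -/
lemma power {N : ℕ} (hN : N ≠ 0) {x : A → V n} (hx : Tendsto x U (𝓝 0)) :
    ∃ (ε : V n) (y : A → V n), (∀ i, ε i ≠ 0) ∧ Lift U x (fun s i => ε i * s i ^ N) y := by
  have h : ∀ i, ∃ ε : ℝ, ε ≠ 0 ∧ ∀ᶠ a in U, ε * |x a i| = x a i := fun i => by
    by_cases h : ∀ᶠ a in U, 0 ≤ x a i
    · exact ⟨1, one_ne_zero, h.mono fun a ha => by rw [one_mul, abs_of_nonneg ha]⟩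
    · refine ⟨-1, by simp, (Ultrafilter.eventually_not.2 h).mono fun a ha => ?_⟩
      rw [abs_of_neg (not_le.1 ha)]; ring
  choose ε h1 h2 using h
  refine ⟨ε, fun a i => |x a i| ^ (N : ℝ)⁻¹, h1,
    analyticAt_pi_iff.2 fun i => analyticAt_const.mul ((an_coord i 0).pow N),
    by ext i; simp [hN], tendsto_pi_nhds.2 fun i => ?_, ?_⟩
  · have := (tendsto_pi_nhds.1 hx i).abs.rpow_const (p := (N : ℝ)⁻¹) (Or.inr (by positivity))
    rwa [Pi.zero_apply, abs_zero, Real.zero_rpow (inv_ne_zero (Nat.cast_ne_zero.2 hN))] at this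
  · filter_upwards [eventually_all.2 h2] with a ha
    funext i
    rw [Real.rpow_inv_natCast_pow (abs_nonneg _) hN, ha i]

/-- expansion in the first variable -/
lemma expand {g : V (n + 1) → ℝ} (hg : AnalyticAt ℝ g 0) (d : ℕ) :
    ∃ (a : ℕ → V n → ℝ) (u : V (n + 1) → ℝ), (∀ j, AnalyticAt ℝ (a j) 0) ∧ AnalyticAt ℝ u 0 ∧
      ∀ᶠ w in 𝓝 0, g w = ∑ j ∈ Finset.range d, a j (tl w) * w 0 ^ j + w 0 ^ d * u w := by
  induction d with
  | zero => exact ⟨fun _ _ => 0, g, fun _ => analyticAt_const, hg, .of_forall fun w => by simp⟩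
  | succ d ih =>
    obtain ⟨a, u, ha, hu, e⟩ := ih
    obtain ⟨h, hh, e'⟩ := div_coord hu 0
    refine ⟨fun j => if j = d then fun x => u (cs 0 x) else a j, h, fun j => ?_, hh, ?_⟩
    · beta_reduce
      split_ifs
      exacts [an_comp hu (an_cs analyticAt_const analyticAt_id) cs_zero_zero, ha j]
    · filter_upwards [e, e'] with w h1 h2
      have h3 : kill 0 w = cs 0 (tl w) := by
        rw [kill_apply]
        conv_lhs => rw [← cs_tl w]
        exact Fin.update_cons_zero _ _ _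
      rw [Finset.sum_range_succ, if_pos rfl, Finset.sum_congr rfl (g := fun j =>
        a j (tl w) * w 0 ^ j) fun j hj => by rw [if_neg (Finset.mem_range.1 hj).ne], h1, ← h3,
        pow_succ]
      linear_combination w 0 ^ d * h2

lemma coef {F u : ℝ → ℝ} {a : ℕ → ℝ} {d : ℕ} (hu : AnalyticAt ℝ u 0)
    (e : ∀ᶠ t in 𝓝 0, F t = ∑ j ∈ Finset.range d, a j * t ^ j + t ^ d * u t) {k : ℕ}
    (hk : k < d) : iteratedDeriv k F 0 = k ! * a k := by
  have h1 : AnalyticAt ℝ (fun t : ℝ => t ^ d * u t) 0 := (analyticAt_id.pow d).mul hu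
  have h2 := (natCast_le_analyticOrderAt_iff_iteratedDeriv_eq_zero h1).1
    ((natCast_le_analyticOrderAt h1).2 ⟨u, hu, .of_forall fun t => by simp⟩) k hk
  rw [Filter.EventuallyEq.iteratedDeriv_eq k e, iteratedDeriv_fun_add (by fun_prop) h1.contDiffAt,
    h2, add_zero, iteratedDeriv_fun_sum fun _ _ => by fun_prop,
    Finset.sum_eq_single k, iteratedDeriv_const_mul_field, iteratedDeriv_pow]
  · simp [Nat.descFactorial_self, mul_comm]
  · intro j _ hj
    rw [iteratedDeriv_const_mul_field, iteratedDeriv_pow]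
    rcases lt_or_gt_of_ne hj with h | h
    · simp [Nat.descFactorial_of_lt h]
    · simp [Nat.sub_ne_zero_of_lt h]
  · simp [hk]

lemma coef_top {F u : ℝ → ℝ} {a : ℕ → ℝ} {d : ℕ} (hu : AnalyticAt ℝ u 0)
    (e : ∀ᶠ t in 𝓝 0, F t = ∑ j ∈ Finset.range d, a j * t ^ j + t ^ d * u t) :
    iteratedDeriv d F 0 = d ! * u 0 := by
  obtain ⟨v, hv, e'⟩ := hu.exists_eq_sum_add_pow_mul 1
  have := coef (a := fun j => if j = d then u 0 else a j) (d := d + 1) hv (F := F) (by
    filter_upwards [e] with t ht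
    rw [Finset.sum_range_succ, if_pos rfl, Finset.sum_congr rfl (g := fun j => a j * t ^ j)
      fun j hj => by rw [if_neg (Finset.mem_range.1 hj).ne], ht, e' t]
    simp; ring) d.lt_succ_self
  rwa [if_pos rfl] at this

/-- the order drops after the blow up -/
lemma poly_ord {b : ℕ → ℝ} {e : ℕ} {u c : ℝ} (hu : u ≠ 0) (hb : b e = 0)
    (h : ∃ j < e + 1, b j ≠ 0) : ∃ k < e + 1, iteratedDeriv k (fun s : ℝ =>
      ∑ j ∈ Finset.range (e + 1), b j * (c + s) ^ j + (c + s) ^ (e + 1) * u) 0 ≠ 0 := by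
  by_contra hc
  push Not at hc
  have h1 := hc e e.lt_succ_self
  rw [iteratedDeriv_comp_const_add e (fun s : ℝ =>
    ∑ j ∈ Finset.range (e + 1), b j * s ^ j + s ^ (e + 1) * u) c] at h1
  simp only [add_zero] at h1
  rw [iteratedDeriv_fun_add (by fun_prop) (by fun_prop),
    iteratedDeriv_fun_sum fun _ _ => by fun_prop, Finset.sum_eq_zero, zero_add,
    iteratedDeriv_mul_const_field, iteratedDeriv_pow] at h1
  · have h2 : c = 0 := by simpa [hu] using h1
    obtain ⟨j, hj, h3⟩ := h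
    have h4 := hc j hj
    rw [coef (a := b) (u := fun _ => u) (d := e + 1) analyticAt_const
      (.of_forall fun t => by simp [h2]) hj] at h4
    exact mul_ne_zero (Nat.cast_ne_zero.2 j.factorial_ne_zero) h3 h4
  · intro j hj
    rw [iteratedDeriv_const_mul_field, iteratedDeriv_pow]
    rcases (Nat.lt_succ_iff.1 (Finset.mem_range.1 hj)).lt_or_eq with h | h
    · simp [Nat.descFactorial_of_lt h]
    · simp [h, hb]

end Crest.Agent.N250.Mo
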